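import Vale.Agent.P167.H592.T.FamB
import Vale.Agent.P167.H680.T.Legs

/-!
# P167, general `q`: the frame of a polygon is a family of walls for block 2A
-/

namespace Vale.Agent.P167.Enl

open Finset Filter Topology
open Vale.Agent.P167.E6 (IsPolygon Encloses dir face)
open Vale.Agent.P167.H825 (enl pdir epos Marks rnd bsite Box FlowIn ptau)
open Vale.Agent.P167.BR (ce be)
open Vale.Agent.P167.XDL (bS mem_bS)
open Vale.Agent.P167.H199 (Gap sp MgR mth reg c0 Gen mgR_reg marks_mem marks_mono mks mks_ok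
  exists_Gap c0_pos reg_ne)
open Vale.Agent.P167.H680 (Mg)
open Vale.Agent.P167.H680.T (WallG WCG Fam)
open Vale.Agent.P167.H825.Q (Row srow osq mem_srow srow_L Bc stΦ stτ stτ_or frow PT clR rowP)

variable {l : ℕ} {p : ZMod l → ℤ × ℤ} {n : ℕ} {S₀ : Finset (ℤ × ℤ)} {b : Box}
  {θ β tp : ℝ} {bc : Bc}

theorem mg_mono' {b : Box} {κ κ' : ℝ} {r : Fin 5} {v : ℤ × ℤ} (hle : κ' * n ≤ κ * n)
    (h : Mg b κ n r v) : Mg b κ' n r v := by
  fin_cases r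
  · have h1 : (v.1 : ℝ) + κ * n ≤ b.xl * n := h
    show (v.1 : ℝ) + κ' * n ≤ b.xl * n
    linarith
  · have h1 : b.xl * n + κ * n ≤ v.1 ∧ b.yt * n + κ * n ≤ v.2 := h
    show b.xl * n + κ' * n ≤ v.1 ∧ b.yt * n + κ' * n ≤ v.2
    exact ⟨by linarith [h1.1], by linarith [h1.2]⟩
  · have h1 : b.xr * n + κ * n ≤ v.1 ∧ (v.2 : ℝ) + κ * n ≤ b.yt * n := h
    show b.xr * n + κ' * n ≤ v.1 ∧ (v.2 : ℝ) + κ' * n ≤ b.yt * n
    exact ⟨by linarith [h1.1], by linarith [h1.2]⟩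
  · have h1 : b.xl * n + κ * n ≤ v.1 ∧ (v.1 : ℝ) + κ * n ≤ b.xr * n ∧
      (v.2 : ℝ) + κ * n ≤ b.yb * n := h
    show b.xl * n + κ' * n ≤ v.1 ∧ (v.1 : ℝ) + κ' * n ≤ b.xr * n ∧
      (v.2 : ℝ) + κ' * n ≤ b.yb * n
    exact ⟨by linarith [h1.1], by linarith [h1.2.1], by linarith [h1.2.2]⟩
  · have h1 : b.xl * n + κ * n ≤ v.1 ∧ (v.1 : ℝ) + κ * n ≤ b.xr * n ∧
      b.yb * n + κ * n ≤ v.2 ∧ (v.2 : ℝ) + κ * n ≤ b.yt * n := h
    show b.xl * n + κ' * n ≤ v.1 ∧ (v.1 : ℝ) + κ' * n ≤ b.xr * n ∧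
      b.yb * n + κ' * n ≤ v.2 ∧ (v.2 : ℝ) + κ' * n ≤ b.yt * n
    exact ⟨by linarith [h1.1], by linarith [h1.2.1], by linarith [h1.2.2.1],
      by linarith [h1.2.2.2]⟩

/-- Margins of the edges of the rows. -/
theorem row_mg (h0 : 0 < tp) (h1 : tp < 1)
    (ht : ∀ i : ℤ, ∀ y ∈ ({b.xl, b.xr, b.yb, b.yt} : Set ℝ), y ≠ i + tp ∧ y ≠ i - tp)
    (hgen : Gen b) {g δ : ℝ} (hg : Gap (mks p b tp) l g) (hδ : 0 < δ) (hδg : 4 * δ ≤ g)
    (hn : 16 ≤ δ * n) (hn' : 4 ≤ min (δ / 2) (c0 b) * n) {i j : ℕ} (hi : i < l)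
    (hj : j ≤ (mks p b tp).m) {e : Ed} (he : e ∈ bS (rowP p n i (sW p n (mks p b tp) ⌊δ * n⌋₊ i j)
      (eW p n (mks p b tp) ⌊δ * n⌋₊ i j))) :
    Mg b (min (δ / 2) (c0 b) / 2) n (reg p b i j) (epos e) := by
  have hQ : (mks p b tp).Ok := mks_ok p hgen h0 h1 ht
  have hr := rb_of (p := p) hQ hg hδ hδg hn hi hj
  obtain ⟨σ, k1, k2, k3⟩ := row_near he
  have hn0 : (0 : ℝ) < n := by exact_mod_cast hr.n0
  have k1' : ((sW p n (mks p b tp) ⌊δ * n⌋₊ i j : ℕ) : ℝ) ≤ σ := by exact_mod_cast k1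
  have k2' : (σ : ℝ) + 1 ≤ (eW p n (mks p b tp) ⌊δ * n⌋₊ i j : ℕ) := by exact_mod_cast k2
  have c1 := hr.s1
  have c2 := hr.e2
  have hsp1 : (n : ℝ) * (sp (p i) (pdir p i) (σ / n)).1 = ((vp p n i σ).1 : ℤ) := by
    unfold sp vp vz
    simp only [Prod.fst_add, Prod.smul_fst, smul_eq_mul]
    push_cast
    field_simp
  have hsp2 : (n : ℝ) * (sp (p i) (pdir p i) (σ / n)).2 = ((vp p n i σ).2 : ℤ) := by
    unfold sp vp vz
    simp only [Prod.snd_add, Prod.smul_snd, smul_eq_mul]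
    push_cast
    field_simp
  have m1 : MgR b (min (δ / 2) (c0 b)) (reg p b i j) (sp (p i) (pdir p i) (σ / n)) := by
    refine mgR_reg (p := p) hgen i (j := j) hj (by positivity) ?_ ?_
    · rw [le_div_iff₀ hn0]
      show (mth b (pdir p i) j + δ / 2) * n ≤ σ
      have : (mth b (pdir p i) j + δ) * n - 2 ≤ (sW p n (mks p b tp) ⌊δ * n⌋₊ i j : ℕ) := c1
      nlinarith
    · rw [div_le_iff₀ hn0]
      show (σ : ℝ) ≤ (mth b (pdir p i) (j + 1) - δ / 2) * n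
      have : ((eW p n (mks p b tp) ⌊δ * n⌋₊ i j : ℕ) : ℝ) ≤
        (mth b (pdir p i) (j + 1) - δ) * n + 2 := c2
      nlinarith
  refine m1.mg (C := 2) ?_ ?_ (by linarith)
  · rw [hsp1]
    have : |(epos e - vp p n i σ).1| ≤ 2 := (le_max_left _ _).trans k3
    exact_mod_cast this
  · rw [hsp2]
    have : |(epos e - vp p n i σ).2| ≤ 2 := (le_max_right _ _).trans k3
    exact_mod_cast this

/-- **The frame of the polygon is a family of walls.** -/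
theorem fam_PT [NeZero l] (hp : IsPolygon p) (hD : Encloses p S₀) (hb : b.Ok S₀) (h0 : 0 < tp)
    (h1 : tp < 1)
    (ht : ∀ i : ℤ, ∀ y ∈ ({b.xl, b.xr, b.yb, b.yt} : Set ℝ), y ≠ i + tp ∧ y ≠ i - tp)
    (hbc : bc.Ok l (mks p b tp)) (hθ : 0 < θ) (hθ' : 3 * θ ≤ Real.pi)
    (hβ : β = (θ - Real.pi) / 2 ∨ β = (Real.pi - 3 * θ) / 2) (Zr : ℕ → Row → ℝ) :
    ∃ δ₀ : ℝ, 0 < δ₀ ∧ ∀ δ : ℝ, 0 < δ → δ < δ₀ →
      Fam (clR θ Zr) S₀ b (fun x : Fin l × Fin ((mks p b tp).m + 1) => reg p b x.1 x.2)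
        (fun n => (PT θ β p (mks p b tp) n ⌊δ * n⌋₊ bc Zr 0).w) := by
  have hgen : Gen b := ⟨hb.gx, hb.gy⟩
  have hQ : (mks p b tp).Ok := mks_ok p hgen h0 h1 ht
  obtain ⟨g1, hg1, hG⟩ := exists_Gap hQ l
  obtain ⟨g2, hg2, hB⟩ := exists_BGap hbc
  set g : ℝ := min g1 g2 with hgdef
  have hg : Gap (mks p b tp) l g := hG.mono (min_le_left _ _)
  have hbg : BGap l (mks p b tp) g bc := hB.mono (min_le_right _ _)
  have hg0 : 0 < g := lt_min hg1 hg2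
  have hc0 := c0_pos hgen
  refine ⟨g / 4, by positivity, fun δ hδ hδ' => ⟨fun x => ?_, fun κ₀ hκ₀ => ?_⟩⟩
  · exact reg_ne hgen hp hD hb.sub x.1 (j := x.2) (by
      have := x.2.2
      have h2 : (mks p b tp).m = 2 := rfl
      omega)
  have hδg : 4 * δ ≤ g := by linarith
  set κ' : ℝ := min (δ / 2) (c0 b) with hκ'
  have hκ'0 : 0 < κ' := by positivity
  set κ : ℝ := min (min (δ / 2) (κ₀ / 2)) (κ' / 2) with hκ
  have hκ0 : 0 < κ := by positivity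
  refine ⟨κ, hκ0, R0 p S₀ + 3, fun B => ?_⟩
  have ev : ∀ {x : ℝ} (y : ℝ), 0 < x → ∀ᶠ n : ℕ in atTop, y ≤ x * n := fun y hx =>
    (tendsto_natCast_atTop_atTop.const_mul_atTop hx).eventually_ge_atTop y
  filter_upwards [ev 16 hδ, ev 6 hκ₀, ev 4 hκ'0, eventually_gt_atTop 0] with n hn hn2 hn3 hn0
  have hn0' : (0 : ℝ) ≤ n := Nat.cast_nonneg n
  have hR := rows_marks (p := p) hQ hg hδ hδg hn
  have le1 : κ * n ≤ δ / 2 * n := mul_le_mul_of_nonneg_right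
    ((min_le_left _ _).trans (min_le_left _ _)) hn0'
  have le2 : κ * n ≤ κ₀ / 2 * n := mul_le_mul_of_nonneg_right
    ((min_le_left _ _).trans (min_le_right _ _)) hn0'
  have le3 : κ * n ≤ κ' / 2 * n := mul_le_mul_of_nonneg_right (min_le_right _ _) hn0'
  have hm : δ * n - 2 ≤ ((⌊δ * n⌋₊ - 1 : ℕ) : ℝ) := by
    have h3 : 1 ≤ ⌊δ * n⌋₊ := Nat.le_floor (by push_cast; linarith)
    rw [Nat.cast_sub h3]
    have := Nat.lt_floor_add_one (δ * n)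
    push_cast
    linarith
  refine ⟨fun c hc => ?_, fun x e he => ⟨?_, ?_⟩, fun x => ?_⟩
  · exact hR.adm hp hD hκ₀ hn0 (by linarith) (by linarith) (fun x => frow_S _ _ _) hc
  · have he' : e ∈ bS (rowP p n x.1 (sW p n (mks p b tp) ⌊δ * n⌋₊ x.1 x.2)
        (eW p n (mks p b tp) ⌊δ * n⌋₊ x.1 x.2)) := by
      rw [← frow_S (θ := θ) (β := β) (bc := bc) (d := ⌊δ * n⌋₊)
        (Zr n (frow θ β p (mks p b tp) n ⌊δ * n⌋₊ bc x.1 x.2))]
      exact he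
    exact mg_mono' le3 (row_mg h0 h1 ht hgen hg hδ hδg hn hn3 x.1.2 (j := x.2) (by omega) he')
  · have he' : e ∈ bS (rowP p n x.1 (sW p n (mks p b tp) ⌊δ * n⌋₊ x.1 x.2)
        (eW p n (mks p b tp) ⌊δ * n⌋₊ x.1 x.2)) := by
      rw [← frow_S (θ := θ) (β := β) (bc := bc) (d := ⌊δ * n⌋₊)
        (Zr n (frow θ β p (mks p b tp) n ⌊δ * n⌋₊ bc x.1 x.2))]
      exact he
    exact hR.box hn0 (x := x) he'
  · have ok := frow_ok (bc := bc) hp hD hQ hθ hθ' hβ hg hbg hδ hδg hn x.1.2 (j := x.2) (by omega)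
    exact ⟨_, ⟨_, ok.mono (by linarith), rfl⟩, H680.T.Orb.refl⟩

end Vale.Agent.P167.Enl
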