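import Vale.Agent.P167.H592.T.FamB
import Vale.Agent.P167.H506.Q.Hole

/-!
# P167, general `q`, START: the boxes of the holes of the frame

The holes are at the marks `hsite p Q n x`. Boundary edges of the domain which are not edges of the
frame are in small boxes; the boxes of size `κ n` are disjoint and contain frozen squares of one
colour only; flows in the domain vanish there.
-/

namespace Vale.Agent.P167.Enl

open Finset Filter Topology
open Vale.Agent.P167.E6 (IsPolygon Encloses dir face)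
open Vale.Agent.P167.H825 (enl pdir epos Marks rnd bsite Box FlowIn ptau PW)
open Vale.Agent.P167.BR (ce be)
open Vale.Agent.P167.XDL (bS mem_bS)
open Vale.Agent.P167.FK (Bq)
open Vale.Agent.P167.H662 (hsite)
open Vale.Agent.P167.H199 (Gap exists_Gap)
open Vale.Agent.P167.H825.Q (Row Bc frow)

variable {l : ℕ} {p : ZMod l → ℤ × ℤ} {n : ℕ} {S₀ : Finset (ℤ × ℤ)} {Q : Marks} {bc : Bc} {d : ℕ}

/-- The squares of the frame with holes of size `2 d` at the marks. -/
noncomputable def frmQ (p : ZMod l → ℤ × ℤ) (Q : Marks) (n d : ℕ) : Finset (ℤ × ℤ) :=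
  frm p n (fun x : Fin l × Fin (Q.m + 1) => (x.1 : ℕ)) (fun x => sW p n Q d x.1 x.2)
    (fun x => eW p n Q d x.1 x.2)

theorem mem_frmQ {v : ℤ × ℤ} : v ∈ frmQ p Q n d ↔ ∃ x : Fin l × Fin (Q.m + 1), ∃ σ : ℕ,
    sW p n Q d x.1 x.2 ≤ σ ∧ σ < eW p n Q d x.1 x.2 ∧ v = op p n x.1 σ := mem_frm

theorem frmQ_eq (θ β : ℝ) (bc : Bc) : frmQ p Q n d =
    univ.biUnion fun x : Fin l × Fin (Q.m + 1) => (frow θ β p Q n d bc x.1 x.2).I := by
  unfold frmQ frm
  refine biUnion_congr rfl fun x _ => ?_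
  rw [frow_I]

theorem mem_Bq' {v c : ℤ × ℤ} {R : ℤ} (h : v ∈ Bq c R) : nm (v - c) ≤ R := by
  unfold Bq at h
  rw [mem_product, mem_Ico, mem_Ico] at h
  unfold nm
  rw [max_le_iff, abs_le, abs_le]
  simp only [Prod.fst_sub, Prod.snd_sub]
  omega

theorem Bq_of {v c : ℤ × ℤ} {R : ℤ} (h : nm (v - c) < R) : v ∈ Bq c R := by
  unfold nm at h
  rw [max_lt_iff, abs_lt, abs_lt] at h
  simp only [Prod.fst_sub, Prod.snd_sub] at h
  unfold Bq
  rw [mem_product, mem_Ico, mem_Ico]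
  omega

/-- **Holes**: the boundary edges of the domain which are not edges of the frame. -/
theorem hole_near (hp : IsPolygon p) (hD : Encloses p S₀) (hQ : Q.Ok) {g δ : ℝ}
    (hg : Gap Q l g) (hδ : 0 < δ) (hδg : 4 * δ ≤ g) (hn : 16 ≤ δ * n) {e : Ed}
    (he : e ∈ bS (enl S₀ n)) (he' : e ∉ bS (frmQ p Q n ⌊δ * n⌋₊)) :
    ∃ x, nm (hdv e - hsite p Q n x) ≤ (⌊δ * n⌋₊ : ℤ) + 3 := by
  have hR := rows_marks (p := p) hQ hg hδ hδg hn
  have h1 : 1 ≤ ⌊δ * n⌋₊ := Nat.le_floor (by push_cast; linarith)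
  have h16 : 16 ≤ ⌊δ * n⌋₊ := Nat.le_floor (by push_cast; linarith)
  have hn0 : 0 < n := by
    rcases Nat.eq_zero_or_pos n with h | h
    · rw [h] at hn; norm_num at hn
    · exact h
  refine geo_gap hp hD hQ h1 hn0 e (mem_bS_bdy.1 he) fun h2 => he' ?_
  have h3 : ∃ x, e ∈ ((PW p Q n ⌊δ * n⌋₊ 0).w x).S := by
    have : e ∈ univ.biUnion fun x => ((PW p Q n ⌊δ * n⌋₊ 0).w x).S := h2
    obtain ⟨x, -, hx⟩ := mem_biUnion.1 this
    exact ⟨x, hx⟩
  obtain ⟨x, hx⟩ := h3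
  obtain ⟨σ, k1, k2, k3⟩ := (mem_wall hp hD hQ h1 hn0 x e).1 hx
  unfold frmQ
  rw [hR.bS_frm hp (by omega), mem_biUnion]
  exact ⟨x, mem_univ _, mem_bS_row.2 (Or.inl ⟨σ, k1, k2, Or.inl k3⟩)⟩

/-- The frame is outside of the domain. -/
theorem frmQ_disj (hp : IsPolygon p) (hD : Encloses p S₀) (hQ : Q.Ok) {g δ : ℝ}
    (hg : Gap Q l g) (hδ : 0 < δ) (hδg : 4 * δ ≤ g) (hn : 16 ≤ δ * n) :
    Disjoint (enl S₀ n) (frmQ p Q n ⌊δ * n⌋₊) :=
  (rows_marks (p := p) hQ hg hδ hδg hn).disj hp hD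

/-- **The boxes of the holes are disjoint.** -/
theorem box_disj (hp : IsPolygon p) (hQ : Q.Ok) {g : ℝ} (hg : Gap Q l g) {R : ℤ}
    (hR : (2 * R : ℝ) + 2 < g * n) {x y : Fin l × Fin (Q.m + 1)} (hxy : x ≠ y) :
    Disjoint (Bq (hsite p Q n x) R) (Bq (hsite p Q n y) R) := by
  have hg1 : g ≤ 1 := by
    have h1 := hg.1 x.1 x.1.2 x.2 (by omega)
    have h2 := theta_nonneg hQ x.1 (j := x.2) (by omega)
    have h3 := theta_le_one hQ x.1 (j := x.2 + 1) (by omega)
    linarith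
  have h1 := hsite_far (n := n) hQ (fun i hi j hj => by linarith [hg.1 i hi j hj]) hp hg1 hxy
  rw [Finset.disjoint_left]
  intro v hv hv'
  have h2 := mem_Bq' hv
  have h3 := mem_Bq' hv'
  have h4 := nm_tri (hsite p Q n x) v (hsite p Q n y)
  rw [nm_sub_comm (hsite p Q n x) v] at h4
  have h5 : nm (hsite p Q n x - hsite p Q n y) ≤ 2 * R := by omega
  have h6 : (nm (hsite p Q n x - hsite p Q n y) : ℝ) ≤ 2 * R := by exact_mod_cast h5
  linarith

/-- **Windows**: steps near a mark. -/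
theorem window (hp : IsPolygon p) (hQ : Q.Ok) {g : ℝ} (hg : Gap Q l g) {m : ℤ}
    (hm : (2 * m : ℝ) + 2 < g * n) {x : Fin l × Fin (Q.m + 1)} {i σ : ℕ} (hi : i < l)
    (hσ : σ < n) (h : nm (vp p n i σ - hsite p Q n x) ≤ m) :
    (i = x.1 ∧ |(σ : ℤ) - ⌊Q.θ x.1 x.2 * n⌋₊| ≤ m) ∨
      ((x.2 : ℕ) = 0 ∧ (i + 1 = x.1 ∨ (i + 1 = l ∧ (x.1 : ℕ) = 0)) ∧ (n : ℤ) - σ ≤ m) := by
  obtain ⟨⟨i', hi'⟩, ⟨j, hj⟩⟩ := x
  have hn0 : (0 : ℝ) ≤ n := Nat.cast_nonneg n
  have hg1 : g ≤ 1 := by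
    have h1 := hg.1 i' hi' j (by omega)
    have h2 := theta_nonneg hQ i' (j := j) (by omega)
    have h3 := theta_le_one hQ i' (j := j + 1) (by omega)
    linarith
  have hmn : 2 * m + 2 < n := by
    have : (2 * m : ℝ) + 2 < n := by nlinarith
    exact_mod_cast this
  have hm0 : 0 ≤ m := (nm_nonneg _).trans h
  change nm (vp p n i σ - vp p n i' ⌊Q.θ i' j * n⌋₊) ≤ m at h
  by_cases hii : i = i'
  · subst hii
    rw [vp_same] at h
    exact Or.inl ⟨rfl, h⟩
  · right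
    simp only
    have hθn := (fl hQ n i' (show j ≤ Q.m + 1 by omega)).2.2
    have hj0 : j = 0 := by
      by_contra hj0
      have hκ : ∀ i < l, ∀ j ≤ Q.m, g ≤ Q.θ i (j + 1) - Q.θ i j :=
        fun i hi j hj => by linarith [hg.1 i hi j hj]
      have h2 := mark_far (n := n) hQ hκ hi' (show 1 ≤ j by omega) (by omega)
      have h5 : m + 1 ≤ ⌊g * n⌋ - 1 := by
        have := Int.lt_floor_add_one (g * n)
        have h6 : ((2 * m + 2 : ℤ) : ℝ) < g * n := by push_cast; exact hm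
        have h7 : 2 * m + 2 ≤ ⌊g * n⌋ := Int.le_floor.2 h6.le
        omega
      have h3 := vp_far (n := n) hp hi' hi (Ne.symm hii) (σ := (⌊Q.θ i' j * n⌋₊ : ℤ))
        (σ' := (σ : ℤ)) (m := m + 1) (by omega) (by omega) (by omega) (by omega) (by omega)
      rw [nm_sub_comm] at h3
      omega
    subst hj0
    rw [fl_zero hQ] at h
    have hv0 : vp p n i' ((0 : ℕ) : ℤ) = (n : ℤ) • p (i' : ℕ) := by
      unfold vp vz
      simp
    rw [hv0] at h
    have hns : (n : ℤ) - σ ≤ m := by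
      by_contra hlt
      push Not at hlt
      by_cases hs : (σ : ℤ) ≤ m
      · have h4 := nm_tri ((n : ℤ) • p (i : ℕ)) (vp p n i σ) ((n : ℤ) • p (i' : ℕ))
        have h5 : nm ((n : ℤ) • p (i : ℕ) - vp p n i σ) = σ := by
          unfold vp vz
          rw [sub_add_cancel_left, nm_neg, nm_dir, Nat.abs_cast]
        have h6 : p (i : ℕ) ≠ p (i' : ℕ) := fun h2 => hii (by
          have h1 := hp.2.1 h2
          rw [ZMod.natCast_eq_natCast_iff'] at h1
          rwa [Nat.mod_eq_of_lt hi, Nat.mod_eq_of_lt hi'] at h1)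
        have h7 := verts_dist (n := n) h6
        omega
      · have h3 := vp_far (n := n) hp hi hi' hii (σ := (σ : ℤ)) (σ' := ((0 : ℕ) : ℤ))
          (m := m + 1) (by omega) (by omega) (by omega) (by omega) (by omega)
        rw [hv0] at h3
        omega
    refine ⟨rfl, ?_, hns⟩
    have h4 := nm_tri ((n : ℤ) • p ((i + 1 : ℕ) : ZMod l)) (vp p n i σ) ((n : ℤ) • p (i' : ℕ))
    have h5 : nm ((n : ℤ) • p ((i + 1 : ℕ) : ZMod l) - vp p n i σ) = n - σ := by
      have e1 : p ((i + 1 : ℕ) : ZMod l) = p (i : ℕ) + dir (pdir p i) := by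
        rw [← pdir_step hp]
        push_cast
        rfl
      unfold vp vz
      rw [e1, smul_add, add_sub_add_left_eq_sub, ← sub_smul, nm_dir, abs_of_nonneg (by omega)]
    have h6 : p ((i + 1 : ℕ) : ZMod l) = p (i' : ℕ) := by
      by_contra h6
      have h7 := verts_dist (n := n) h6
      omega
    have h1 := hp.2.1 h6
    rw [ZMod.natCast_eq_natCast_iff'] at h1
    rw [Nat.mod_eq_of_lt hi'] at h1
    rcases Nat.lt_or_ge (i + 1) l with h8 | h8
    · rw [Nat.mod_eq_of_lt h8] at h1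
      exact Or.inl h1
    · right
      have h9 : i + 1 = l := by omega
      rw [h9, Nat.mod_self] at h1
      exact ⟨h9, h1.symm⟩

/-- **The colour of the steps near a mark** is the colour of the mark. -/
theorem window_col (hp : IsPolygon p) (hQ : Q.Ok) {g : ℝ} (hg : Gap Q l g)
    (hbg : BGap l Q g bc) {m : ℤ} (hm : (2 * m : ℝ) + 2 < g * n) {x : Fin l × Fin (Q.m + 1)}
    {i σ : ℕ} (hi : i < l) (hσ : σ < n) (h : nm (vp p n i σ - hsite p Q n x) ≤ m) :
    kOf l n (tB n Q) i σ < bc.ka l n (tB n Q) ↔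
      kOf l n (tB n Q) x.1 ⌊Q.θ x.1 x.2 * n⌋₊ < bc.ka l n (tB n Q) := by
  have hn0 : (0 : ℝ) ≤ n := Nat.cast_nonneg n
  have hn : 0 < n := by omega
  have ht := tB_lt hQ hn
  have hw := window hp hQ hg hm hi hσ h
  have hm0 : 0 ≤ m := (nm_nonneg _).trans h
  obtain ⟨⟨i', hi'⟩, ⟨j, hj⟩⟩ := x
  simp only at hw ⊢
  have hjm : j ≤ Q.m := by omega
  have g1 := hg.1 i' hi' j hjm
  have g0 : 0 < g := by
    by_contra hlt
    push Not at hlt
    have : g * n ≤ 0 := mul_nonpos_of_nonpos_of_nonneg hlt hn0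
    have : (0 : ℝ) ≤ m := by exact_mod_cast hm0
    linarith
  obtain ⟨f1, f2, -⟩ := fl hQ n i' (show j ≤ Q.m + 1 by omega)
  have hmn : ((2 * m : ℤ) : ℝ) + 2 < g * n := by push_cast; exact hm
  have hmR : (0 : ℝ) ≤ m := by exact_mod_cast hm0
  have hθ' : ⌊Q.θ i' j * n⌋₊ < n := by
    have h1 := theta_le_one hQ i' (j := j + 1) (by omega)
    have h2 : (⌊Q.θ i' j * n⌋₊ : ℝ) < n := by nlinarith
    exact_mod_cast h2
  have t0 := hQ.tp0
  have t1 := hQ.tp1
  have tf1 : (tB n Q : ℝ) ≤ Q.tp * n := Nat.floor_le (by positivity)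
  have tf2 : Q.tp * n < tB n Q + 1 := Nat.lt_floor_add_one _
  -- distance of the base point from the marks of the side `0`
  have tpm : m < (tB n Q : ℤ) ∧ (tB n Q : ℤ) + m < n := by
    have a := hg.2 0 (by omega)
    have b := hg.2 (Q.m + 1) le_rfl
    rw [hQ.zero, zero_sub, abs_neg, abs_of_pos t0] at a
    rw [hQ.one, abs_of_pos (by linarith)] at b
    have a' : g * n ≤ Q.tp * n := mul_le_mul_of_nonneg_right a hn0
    have b' : g * n ≤ (1 - Q.tp) * n := mul_le_mul_of_nonneg_right b hn0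
    constructor
    · have : (m : ℝ) < tB n Q := by push_cast at hmn; linarith
      exact_mod_cast this
    · have : (tB n Q : ℝ) + m < n := by push_cast at hmn; linarith
      exact_mod_cast this
  have tpj : i' = 0 → m < |(⌊Q.θ i' j * n⌋₊ : ℤ) - tB n Q| := by
    rintro rfl
    have a := hg.2 j (by omega)
    have a' : g * n ≤ |Q.θ 0 j - Q.tp| * n := mul_le_mul_of_nonneg_right a hn0
    have b : |Q.θ 0 j - Q.tp| * n = |Q.θ 0 j * n - Q.tp * n| := by
      rw [← sub_mul, abs_mul, abs_of_nonneg hn0]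
    have c : |Q.θ 0 j * n - Q.tp * n| ≤ |((⌊Q.θ 0 j * n⌋₊ : ℕ) : ℝ) - (tB n Q : ℕ)| + 1 := by
      have e1 : Q.θ 0 j * n - Q.tp * n = ((⌊Q.θ 0 j * n⌋₊ : ℕ) : ℝ) - (tB n Q : ℕ) +
        ((Q.θ 0 j * n - ⌊Q.θ 0 j * n⌋₊) - (Q.tp * n - tB n Q)) := by ring
      rw [e1]
      refine (abs_add_le _ _).trans (add_le_add_right ?_ _)
      rw [abs_le]
      constructor <;> linarith
    have c' : (m : ℝ) < |((⌊Q.θ 0 j * n⌋₊ : ℕ) : ℝ) - (tB n Q : ℕ)| := by
      push_cast at hmn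
      linarith
    exact_mod_cast c'
  rcases bc with _ | _ | ⟨ia, ta⟩
  · exact ⟨fun _ => kOf_lt hi' hθ' ht, fun _ => kOf_lt hi hσ ht⟩
  · exact ⟨fun h => absurd h (Nat.not_lt_zero _), fun h => absurd h (Nat.not_lt_zero _)⟩
  · obtain ⟨k1, k2, k3, k4, k5⟩ := hbg
    have h6 := dob_lt (n := n) k3 k4 hn
    show kOf l n (tB n Q) i σ < kOf l n (tB n Q) ia ⌊ta * n⌋₊ ↔
      kOf l n (tB n Q) i' ⌊Q.θ i' j * n⌋₊ < kOf l n (tB n Q) ia ⌊ta * n⌋₊
    rw [kOf_lt_kOf hi ht hσ k1 k2 h6, kOf_lt_kOf hi' ht hθ' k1 k2 h6]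
    have af1 : ((⌊ta * n⌋₊ : ℕ) : ℝ) ≤ ta * n := Nat.floor_le (by positivity)
    have af2 : ta * n < (⌊ta * n⌋₊ : ℕ) + 1 := Nat.lt_floor_add_one _
    have tam : m < (⌊ta * n⌋₊ : ℤ) ∧ (⌊ta * n⌋₊ : ℤ) + m < n := by
      have a := k5 0 (by omega)
      have b := k5 (Q.m + 1) le_rfl
      rw [hQ.zero, zero_sub, abs_neg, abs_of_pos k3] at a
      rw [hQ.one, abs_of_pos (by linarith)] at b
      have a' : g * n ≤ ta * n := mul_le_mul_of_nonneg_right a hn0
      have b' : g * n ≤ (1 - ta) * n := mul_le_mul_of_nonneg_right b hn0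
      constructor
      · have : (m : ℝ) < (⌊ta * n⌋₊ : ℕ) := by push_cast at hmn; linarith
        exact_mod_cast this
      · have : ((⌊ta * n⌋₊ : ℕ) : ℝ) + m < n := by push_cast at hmn; linarith
        exact_mod_cast this
    have taj : i' = ia → m < |(⌊Q.θ i' j * n⌋₊ : ℤ) - ⌊ta * n⌋₊| := by
      rintro rfl
      have a := k5 j (by omega)
      have a' : g * n ≤ |Q.θ i' j - ta| * n := mul_le_mul_of_nonneg_right a hn0
      have b : |Q.θ i' j - ta| * n = |Q.θ i' j * n - ta * n| := by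
        rw [← sub_mul, abs_mul, abs_of_nonneg hn0]
      have c : |Q.θ i' j * n - ta * n| ≤ |((⌊Q.θ i' j * n⌋₊ : ℕ) : ℝ) - (⌊ta * n⌋₊ : ℕ)| + 1 := by
        have e1 : Q.θ i' j * n - ta * n = ((⌊Q.θ i' j * n⌋₊ : ℕ) : ℝ) - (⌊ta * n⌋₊ : ℕ) +
          ((Q.θ i' j * n - ⌊Q.θ i' j * n⌋₊) - (ta * n - ⌊ta * n⌋₊)) := by ring
        rw [e1]
        refine (abs_add_le _ _).trans (add_le_add_right ?_ _)
        rw [abs_le]
        constructor <;> linarith
      have c' : (m : ℝ) < |((⌊Q.θ i' j * n⌋₊ : ℕ) : ℝ) - (⌊ta * n⌋₊ : ℕ)| := by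
        push_cast at hmn
        linarith
      exact_mod_cast c'
    -- the two comparisons, as statements about positions
    have mulle : ∀ {u v : ℕ}, u < v → u * n + n ≤ v * n := fun {u v} h => by
      have := Nat.mul_le_mul_right n (show u + 1 ≤ v from h)
      rwa [add_mul, one_mul] at this
    have hia0 := mulle k1
    rw [zero_mul, zero_add] at hia0
    rcases hw with ⟨rfl, hw⟩ | ⟨rfl, hw, hw'⟩
    · rw [abs_le] at hw
      rcases Nat.eq_zero_or_pos i with rfl | hi0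
      · have h7 := tpj rfl
        rw [lt_abs] at h7
        rw [zero_mul, zero_add, zero_add]
        omega
      · have hi1 := mulle hi0
        rw [zero_mul, zero_add] at hi1
        rcases lt_trichotomy i ia with hlt | heq | hgt
        · have := mulle hlt
          omega
        · have h7 := taj heq
          subst heq
          rw [lt_abs] at h7
          omega
        · have := mulle hgt
          omega
    · rw [fl_zero hQ]
      rcases hw with rfl | ⟨h7, rfl⟩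
      · rw [add_mul, one_mul]
        rcases lt_trichotomy i ia with hlt | heq | hgt
        · have := mulle hlt
          have h9 : tB n Q ≤ i * n + σ := by
            rcases Nat.eq_zero_or_pos i with rfl | hi0
            · rw [zero_mul, zero_add]; omega
            · have hi1 := mulle hi0
              rw [zero_mul, zero_add] at hi1
              omega
          omega
        · subst heq
          omega
        · have := mulle hgt
          omega
      · have h8 : ia ≤ i := by omega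
        rcases Nat.lt_or_ge ia i with h9 | h9
        · have := mulle h9
          rw [zero_mul, zero_add]
          omega
        · have h10 : ia = i := by omega
          subst h10
          rw [zero_mul, zero_add]
          omega

/-- **The frozen squares in the box of a hole have one colour.** -/
theorem box_col (hp : IsPolygon p) (hQ : Q.Ok) {g δ : ℝ} (hg : Gap Q l g)
    (hbg : BGap l Q g bc) (hδ : 0 < δ) (hδg : 4 * δ ≤ g) (hn : 16 ≤ δ * n) {R : ℤ}
    (hR : (2 * R : ℝ) + 4 < g * n) {κ : Cfg}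
    (hκ : ∀ i σ : ℕ, i < l → σ < n → op p n i σ ∈ frmQ p Q n ⌊δ * n⌋₊ →
      κ (op p n i σ) = decide (¬ kOf l n (tB n Q) i σ < bc.ka l n (tB n Q)))
    (x : Fin l × Fin (Q.m + 1)) :
    ∃ b : Bool, ∀ v ∈ frmQ p Q n ⌊δ * n⌋₊, v ∈ Bq (hsite p Q n x) R → κ v = b := by
  refine ⟨decide (¬ kOf l n (tB n Q) x.1 ⌊Q.θ x.1 x.2 * n⌋₊ < bc.ka l n (tB n Q)),
    fun v hv hv' => ?_⟩
  have hrow := rows_marks (p := p) hQ hg hδ hδg hn
  obtain ⟨y, σ, h1, h2, rfl⟩ := mem_frmQ.1 hv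
  have h3 : σ < n := by
    have : eW p n Q ⌊δ * n⌋₊ y.1 y.2 + (⌊δ * n⌋₊ - 1) ≤ n := hrow.hi y
    omega
  rw [hκ y.1 σ y.1.2 h3 hv]
  have h4 : nm (vp p n y.1 σ - hsite p Q n x) ≤ R + 1 := by
    have h5 := mem_Bq' hv'
    have h6 := op_near (p := p) (n := n) y.1 σ
    have h7 := nm_tri (vp p n y.1 σ) (op p n y.1 σ) (hsite p Q n x)
    have h8 := nm_sub_comm (vp p n y.1 σ) (op p n y.1 σ)
    omega
  have h5 := window_col (bc := bc) hp hQ hg hbg (m := R + 1) (by push_cast; linarith) y.1.2 h3 h4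
  exact decide_eq_decide.2 (not_congr h5)

/-- Every mark is next to a square outside of the domain. -/
theorem hsite_out (hp : IsPolygon p) (hD : Encloses p S₀) (hQ : Q.Ok) (hn : 0 < n)
    (x : Fin l × Fin (Q.m + 1)) : ∃ v, v ∉ enl S₀ n ∧ nm (v - hsite p Q n x) ≤ 1 := by
  have hn0 : (0 : ℝ) < n := by exact_mod_cast hn
  refine ⟨op p n x.1 ⌊Q.θ x.1 x.2 * n⌋₊, op_out hp hD x.1.2 ?_, op_near _ _⟩
  have h1 := hQ.lt x.1 x.2 (by omega)
  have h2 := theta_le_one hQ x.1 (j := x.2 + 1) (by omega)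
  have h3 := (fl hQ n x.1 (show (x.2 : ℕ) ≤ Q.m + 1 by omega)).1
  have h4 : (⌊Q.θ x.1 x.2 * n⌋₊ : ℝ) < n := by nlinarith
  exact_mod_cast h4

/-- **Flows in the domain vanish in the boxes of the holes.** -/
theorem box_flow (hp : IsPolygon p) (hD : Encloses p S₀) (hQ : Q.Ok) (hn : 0 < n) {κ₀ B : ℝ}
    {c : Ed → ℝ} (hc : FlowIn (enl S₀ n) κ₀ B n c) {R : ℤ} (hR : (R : ℝ) + 2 ≤ κ₀ * n)
    {x : Fin l × Fin (Q.m + 1)} {e : Ed}
    (he : hdv e ∈ Bq (hsite p Q n x) R ∨ tlv e ∈ Bq (hsite p Q n x) R) : c e = 0 := by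
  by_contra h
  obtain ⟨v, hv, h1⟩ := hsite_out hp hD hQ hn x
  refine hv (hc.sup e h v ?_)
  have h2 : nm (hsite p Q n x - epos e) ≤ R + 1 := by
    obtain ⟨a1, a2⟩ := epos_near e
    rcases he with he | he
    · have h3 := mem_Bq' he
      have h4 := nm_tri (hsite p Q n x) (hdv e) (epos e)
      have h5 := nm_sub_comm (hsite p Q n x) (hdv e)
      omega
    · have h3 := mem_Bq' he
      have h4 := nm_tri (hsite p Q n x) (tlv e) (epos e)
      have h5 := nm_sub_comm (hsite p Q n x) (tlv e)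
      omega
  have h5 := nm_tri v (hsite p Q n x) (epos e)
  have h6 : nm (v - epos e) ≤ R + 2 := by omega
  have h7 : (nm (v - epos e) : ℝ) ≤ R + 2 := by exact_mod_cast h6
  linarith

/-- Flows in the domain live on edges with both squares in the domain. -/
theorem flow_in {κ₀ B : ℝ} {c : Ed → ℝ} (hc : FlowIn (enl S₀ n) κ₀ B n c) (h1 : 1 ≤ κ₀ * n)
    (e : Ed) (he : c e ≠ 0) : hdv e ∈ enl S₀ n ∧ tlv e ∈ enl S₀ n := by
  obtain ⟨a1, a2⟩ := epos_near e
  have a1' : (nm (hdv e - epos e) : ℝ) ≤ 1 := by exact_mod_cast a1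
  have a2' : (nm (tlv e - epos e) : ℝ) ≤ 1 := by exact_mod_cast a2
  exact ⟨hc.sup e he _ (by linarith), hc.sup e he _ (by linarith)⟩

end Vale.Agent.P167.Enl
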