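import Vale.Agent.P167.H592.T.Row
import Vale.Agent.P167.FK.Defs

/-!
# P167, general `q`: the frame of rows around the enlarged polygon

The row `x` consists of the squares outside of the enlargement along the steps `s x ≤ σ < e x` of the
side `i x`.
-/

namespace Vale.Agent.P167.Enl

open Finset
open Vale.Agent.P167.E6 (IsPolygon Encloses dir face)
open Vale.Agent.P167.H825 (enl pdir epos)
open Vale.Agent.P167.BR (ce be ce0 ce1 ce2 ce3 ce_even ce_odd be_bd exists_be eds mem_eds)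
open Vale.Agent.P167.XDL (bS mem_bS)

variable {l : ℕ} {p : ZMod l → ℤ × ℤ} {n t : ℕ} {S₀ : Finset (ℤ × ℤ)}

/-- The site of the step `σ` of the side `i`. -/
def vp (p : ZMod l → ℤ × ℤ) (n i : ℕ) (σ : ℤ) : ℤ × ℤ :=
  vz ((n : ℤ) • p (i : ℕ)) (pdir p i) σ

/-- The square outside of the step `σ` of the side `i`. -/
def op (p : ZMod l → ℤ × ℤ) (n i : ℕ) (σ : ℤ) : ℤ × ℤ :=
  oz ((n : ℤ) • p (i : ℕ)) (pdir p i) σ

/-- The row of squares outside of the steps `s ≤ σ < e` of the side `i`. -/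
def rowP (p : ZMod l → ℤ × ℤ) (n i s e : ℕ) : Finset (ℤ × ℤ) :=
  rowZ ((n : ℤ) • p (i : ℕ)) (pdir p i) s e

theorem mem_rowP {i s e : ℕ} {v : ℤ × ℤ} :
    v ∈ rowP p n i s e ↔ ∃ σ : ℕ, s ≤ σ ∧ σ < e ∧ v = op p n i σ := mem_rowZ

theorem vp_def (i σ : ℕ) : vp p n i σ = (n : ℤ) • p (i : ℕ) + (σ : ℤ) • dir (pdir p i) := rfl

/-- The square outside of a step. -/
theorem op_out (hp : IsPolygon p) (hD : Encloses p S₀) {i σ : ℕ} (hi : i < l) (hσ : σ < n) :
    op p n i σ ∉ enl S₀ n := by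
  obtain ⟨h1, h2⟩ := step_mem hp hD hi hσ
  by_cases hv : Even ((vp p n i σ).1 + (vp p n i σ).2)
  · have h3 := (h1 hv).2
    have h4 := (ce_even hv (pdir p i)).2.2.2
    show face (vp p n i σ) (pdir p i - 1) ∉ enl S₀ n
    rw [← h4]
    exact h3
  · have h3 := (h2 hv).2
    have h4 := (ce_odd hv (pdir p i)).2.2.2
    show face (vp p n i σ) (pdir p i - 1) ∉ enl S₀ n
    rw [← h4]
    exact h3

/-- The square inside of a step. -/
theorem ip_in (hp : IsPolygon p) (hD : Encloses p S₀) {i σ : ℕ} (hi : i < l) (hσ : σ < n) :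
    face (vp p n i σ) (pdir p i) ∈ enl S₀ n := by
  obtain ⟨h1, h2⟩ := step_mem hp hD hi hσ
  by_cases hv : Even ((vp p n i σ).1 + (vp p n i σ).2)
  · have h3 := (h1 hv).1
    rw [← (ce_even hv (pdir p i)).2.2.1]
    exact h3
  · have h3 := (h2 hv).1
    rw [← (ce_odd hv (pdir p i)).2.2.1]
    exact h3

/-- The edge of a step. -/
theorem be_vp (hp : IsPolygon p) {i σ : ℕ} (hi : i < l) (ht : t < n) (hσ : σ < n) :
    be (qN p n t) ((kOf l n t i σ : ℕ) : ZMod (l * n)) = ce (vp p n i σ) (pdir p i) :=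
  be_kOf (by omega) hp hi ht hσ

/-- **The boundary edges of the enlargement.** -/
theorem mem_bS_enl (hp : IsPolygon p) (hD : Encloses p S₀) (hn : 0 < n) {g : Ed} :
    g ∈ bS (enl S₀ n) ↔ ∃ i σ : ℕ, i < l ∧ σ < n ∧ g = ce (vp p n i σ) (pdir p i) := by
  constructor
  · intro hg
    have hq := isPolygon_qN hn hp 0
    have hE := encloses_qN hn hp hD 0
    have h1 : ∃ j, g = be (qN p n 0) j := by
      rw [mem_bS] at hg
      rcases hg with ⟨h1, h2⟩ | ⟨h1, h2⟩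
      · exact exists_be hq hE (mem_eds.2 (Or.inl h1)) (Or.inr h2)
      · exact exists_be hq hE (mem_eds.2 (Or.inr h2)) (Or.inl h1)
    obtain ⟨j, rfl⟩ := h1
    have : NeZero (l * n) := ⟨by
      have := hq.1
      omega⟩
    obtain ⟨i, σ, hi, hσ, h2⟩ := exists_kOf (l := l) (n := n) (t := 0) hn (ZMod.val_lt j)
    refine ⟨i, σ, hi, hσ, ?_⟩
    rw [← be_vp (t := 0) hp hi hn hσ, ← h2, ZMod.natCast_zmod_val]
  · rintro ⟨i, σ, hi, hσ, rfl⟩
    exact mem_bS_two.2 ⟨_, _, two_ce _ _, ip_in hp hD hi hσ, op_out hp hD hi hσ⟩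

/-! ### distances -/

theorem op_near (i : ℕ) (σ : ℤ) : nm (op p n i σ - vp p n i σ) ≤ 1 := face_near _ _

theorem vp_same (i : ℕ) (σ τ : ℤ) : nm (vp p n i σ - vp p n i τ) = |σ - τ| := by
  unfold vp vz
  rw [add_sub_add_left_eq_sub, ← sub_smul, nm_dir]

/-- Points of different sides. -/
theorem vp_far (hp : IsPolygon p) {i i' : ℕ} (hi : i < l) (hi' : i' < l) (hne : i ≠ i')
    {σ σ' m : ℤ} (hj' : 0 ≤ σ') (hj1' : σ' ≤ n) (k1 : m ≤ σ) (k2 : m ≤ n - σ) (hn : m ≤ n) :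
    m ≤ nm (vp p n i σ - vp p n i' σ') := sides_dist hp hi hi' hne hj' hj1' k1 k2 hn

/-- The steps of the squares outside. -/
theorem op_inj (hp : IsPolygon p) {i i' : ℕ} (hi : i < l) (hi' : i' < l) {σ σ' : ℤ}
    (hj' : 0 ≤ σ') (hj1' : σ' ≤ n) (k1 : 3 ≤ σ) (k2 : 3 ≤ n - σ)
    (h : op p n i σ = op p n i' σ') : i = i' ∧ σ = σ' := by
  by_cases hii : i = i'
  · subst hii
    exact ⟨rfl, oz_inj h⟩
  · exfalso
    have h1 := vp_far hp hi hi' hii hj' hj1' k1 k2 (by omega)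
    have h2 := op_near (p := p) (n := n) i σ
    have h3 := op_near (p := p) (n := n) i' σ'
    rw [← h] at h3
    have h4 := nm_tri (vp p n i σ) (op p n i σ) (vp p n i' σ')
    have h5 := nm_sub_comm (vp p n i σ) (op p n i σ)
    omega

/-- A boundary edge of the enlargement with the outer square `op i σ`. -/
theorem edge_op (hp : IsPolygon p) (hD : Encloses p S₀) {i : ℕ} (hi : i < l) {σ : ℤ}
    (k1 : 3 ≤ σ) (k2 : 3 ≤ n - σ) {g : Ed} (hg : g ∈ bS (enl S₀ n)) {w : ℤ × ℤ}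
    (h : Two g (op p n i σ) w) : g = ce (vp p n i σ) (pdir p i) := by
  have hn : 0 < n := by omega
  obtain ⟨i', σ', hi', hσ', rfl⟩ := (mem_bS_enl hp hD hn).1 hg
  have h0 : op p n i σ = op p n i' σ' := by
    have a1 := ip_in hp hD hi' hσ'
    have a2 := op_out hp hD hi' hσ'
    have a3 := op_out (n := n) hp hD hi (σ := σ.toNat) (by omega)
    rw [Int.toNat_of_nonneg (by omega)] at a3
    have a4 : Two (ce (vp p n i' σ') (pdir p i')) (face (vp p n i' σ') (pdir p i'))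
      (op p n i' σ') := two_ce _ _
    rcases h with ⟨b1, b2⟩ | ⟨b1, b2⟩ <;> rcases a4 with ⟨b3, b4⟩ | ⟨b3, b4⟩
    · rw [b1] at b3; rw [← b3] at a1; exact absurd a1 a3
    · rw [b1] at b3; exact b3
    · rw [b2] at b4; exact b4
    · rw [b2] at b4; rw [← b4] at a1; exact absurd a1 a3
  obtain ⟨rfl, rfl⟩ := op_inj (n := n) (σ' := (σ' : ℤ)) hp hi hi' (by omega) (by omega) k1 k2 h0
  rfl

/-! ### the frame -/

/-- The rows of a frame: the row `x` is along the steps `s x ≤ σ < e x` of the side `i x`, all rows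
are at distance `≥ m` from the ends of the sides and from each other. -/
structure Rows {ι : Type} (l n m : ℕ) (i s e : ι → ℕ) : Prop where
  lt : ∀ x, i x < l
  lo : ∀ x, m ≤ s x
  hi : ∀ x, e x + m ≤ n
  dis : ∀ x y, x ≠ y → i x = i y → e x + m ≤ s y ∨ e y + m ≤ s x

variable {ι : Type} {i s e : ι → ℕ} {m : ℕ}

/-- The squares of the frame. -/
def frm [Fintype ι] (p : ZMod l → ℤ × ℤ) (n : ℕ) (i s e : ι → ℕ) : Finset (ℤ × ℤ) :=
  univ.biUnion fun x => rowP p n (i x) (s x) (e x)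

theorem mem_frm [Fintype ι] {v : ℤ × ℤ} : v ∈ frm p n i s e ↔ ∃ x, ∃ σ : ℕ, s x ≤ σ ∧ σ < e x ∧
    v = op p n (i x) σ := by
  unfold frm
  rw [mem_biUnion]
  constructor
  · rintro ⟨x, -, h⟩
    exact ⟨x, mem_rowP.1 h⟩
  · rintro ⟨x, h⟩
    exact ⟨x, mem_univ _, mem_rowP.2 h⟩

/-- Sites of different rows. -/
theorem Rows.far (h : Rows l n m i s e) (hp : IsPolygon p) {x y : ι} (hne : x ≠ y) {σ τ : ℕ}
    (h1 : s x ≤ σ) (h2 : σ < e x) (h3 : s y ≤ τ) (h4 : τ < e y) :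
    (m : ℤ) ≤ nm (vp p n (i x) σ - vp p n (i y) τ) := by
  have a1 := h.lo x
  have a2 := h.hi x
  have a3 := h.lo y
  have a4 := h.hi y
  by_cases hi : i x = i y
  · rw [← hi, vp_same]
    rcases h.dis x y hne hi with h5 | h5
    · rw [abs_sub_comm, abs_of_nonneg (by omega)]; omega
    · rw [abs_of_nonneg (by omega)]; omega
  · exact vp_far hp (h.lt x) (h.lt y) hi (by omega) (by omega) (by omega) (by omega) (by omega)

/-- Positions of edges. -/
theorem epos_ce (v : ℤ × ℤ) (r : Fin 4) : nm (epos (ce v r) - v) ≤ 1 := by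
  obtain ⟨x, y⟩ := v
  rcases fin4_cases r with rfl | rfl | rfl | rfl
  · rw [ce0]; simp [epos, nm]
  · rw [ce1]; simp [epos, nm]
  · rw [ce2]; simp [epos, nm]
  · rw [ce3]; simp [epos, nm]

/-- The edges of a row are near the row. -/
theorem row_near {i s e : ℕ} {g : Ed} (hg : g ∈ bS (rowP p n i s e)) :
    ∃ σ : ℕ, s ≤ σ ∧ σ < e ∧ nm (epos g - vp p n i σ) ≤ 2 := by
  rcases mem_bS_row.1 hg with ⟨σ, h1, h2, rfl | rfl⟩ | ⟨h1, rfl | rfl⟩
  · refine ⟨σ, h1, h2, ?_⟩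
    have : nm (epos (ce (vp p n i σ) (pdir p i)) - vp p n i σ) ≤ 1 := epos_ce _ _
    exact this.trans (by norm_num)
  · refine ⟨σ, h1, h2, ?_⟩
    set r := pdir p i
    have a1 := epos_ce (vp p n i σ + dir (r - 1)) r
    have a2 := nm_tri (epos (ce (vp p n i σ + dir (r - 1)) r)) (vp p n i σ + dir (r - 1))
      (vp p n i σ)
    have a3 := nm_dir 1 (r - 1)
    rw [one_smul] at a3
    rw [add_sub_cancel_left, a3, abs_one] at a2
    show nm (epos (ce (vp p n i σ + dir (r - 1)) r) - vp p n i σ) ≤ 2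
    omega
  · refine ⟨s, le_rfl, h1, ?_⟩
    have : nm (epos (ce (vp p n i s) (pdir p i - 1)) - vp p n i s) ≤ 1 := epos_ce _ _
    exact this.trans (by norm_num)
  · refine ⟨e - 1, by omega, by omega, ?_⟩
    have a1 := epos_ce (vp p n i e) (pdir p i - 1)
    have a2 := nm_tri (epos (ce (vp p n i e) (pdir p i - 1))) (vp p n i e) (vp p n i (e - 1 : ℕ))
    have a3 := vp_same (p := p) (n := n) i e (e - 1 : ℕ)
    have a4 : |(e : ℤ) - (e - 1 : ℕ)| = 1 := by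
      rw [Nat.cast_sub (by omega)]
      simp
    rw [a4] at a3
    show nm (epos (ce (vp p n i e) (pdir p i - 1)) - vp p n i (e - 1 : ℕ)) ≤ 2
    omega

/-- **Edges of different rows are far apart.** -/
theorem Rows.sep (h : Rows l n m i s e) (hp : IsPolygon p) {x y : ι} (hne : x ≠ y) {g g' : Ed}
    (hg : g ∈ bS (rowP p n (i x) (s x) (e x))) (hg' : g' ∈ bS (rowP p n (i y) (s y) (e y))) :
    (m : ℤ) - 4 ≤ nm (epos g - epos g') := by
  obtain ⟨σ, h1, h2, h3⟩ := row_near hg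
  obtain ⟨τ, h4, h5, h6⟩ := row_near hg'
  have h7 := h.far hp hne h1 h2 h4 h5
  have h8 := nm_tri (vp p n (i x) σ) (epos g) (vp p n (i y) τ)
  have h9 := nm_tri (epos g) (epos g') (vp p n (i y) τ)
  have h10 := nm_sub_comm (vp p n (i x) σ) (epos g)
  omega

/-- The frame is outside of the domain. -/
theorem Rows.disj [Fintype ι] (h : Rows l n m i s e) (hp : IsPolygon p) (hD : Encloses p S₀) :
    Disjoint (enl S₀ n) (frm p n i s e) := by
  rw [Finset.disjoint_left]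
  intro v hv hv'
  obtain ⟨x, σ, h1, h2, rfl⟩ := mem_frm.1 hv'
  have := h.hi x
  exact op_out hp hD (h.lt x) (by omega) hv

/-- Squares of different rows are not neighbours. -/
theorem Rows.nadj (h : Rows l n m i s e) (hp : IsPolygon p) (hm : 4 ≤ m) {x y : ι} (hne : x ≠ y)
    {g : Ed} {v w : ℤ × ℤ} (hg : Two g v w) (hv : v ∈ rowP p n (i x) (s x) (e x))
    (hw : w ∈ rowP p n (i y) (s y) (e y)) : False := by
  obtain ⟨σ, h1, h2, rfl⟩ := mem_rowP.1 hv
  obtain ⟨τ, h4, h5, rfl⟩ := mem_rowP.1 hw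
  have h7 := h.far hp hne h1 h2 h4 h5
  have a1 := op_near (p := p) (n := n) (i x) σ
  have a2 := op_near (p := p) (n := n) (i y) τ
  have a3 : nm (op p n (i x) σ - op p n (i y) τ) ≤ 1 := by
    have := hg.nb
    revert this
    generalize op p n (i x) σ = v
    generalize op p n (i y) τ = w
    obtain ⟨v1, v2⟩ := v
    obtain ⟨w1, w2⟩ := w
    simp only [Prod.mk.injEq, nm, Prod.mk_sub_mk]
    rintro (⟨rfl, rfl⟩ | ⟨rfl, rfl⟩ | ⟨rfl, rfl⟩ | ⟨rfl, rfl⟩) <;> simp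
  have h8 := nm_tri (vp p n (i x) σ) (op p n (i x) σ) (vp p n (i y) τ)
  have h9 := nm_tri (op p n (i x) σ) (op p n (i y) τ) (vp p n (i y) τ)
  have h10 := nm_sub_comm (vp p n (i x) σ) (op p n (i x) σ)
  omega

/-- **The boundary edges of the frame are those of its rows.** -/
theorem Rows.bS_frm [Fintype ι] (h : Rows l n m i s e) (hp : IsPolygon p) (hm : 4 ≤ m) :
    bS (frm p n i s e) = univ.biUnion fun x => bS (rowP p n (i x) (s x) (e x)) := by
  ext g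
  rw [mem_biUnion, mem_bS_two]
  constructor
  · rintro ⟨v, w, h1, h2, h3⟩
    obtain ⟨x, -, hx⟩ := mem_biUnion.1 h2
    exact ⟨x, mem_univ _, mem_bS_two.2 ⟨v, w, h1, hx, fun h4 =>
      h3 (mem_biUnion.2 ⟨x, mem_univ _, h4⟩)⟩⟩
  · rintro ⟨x, -, hx⟩
    obtain ⟨v, w, h1, h2, h3⟩ := mem_bS_two.1 hx
    refine ⟨v, w, h1, mem_biUnion.2 ⟨x, mem_univ _, h2⟩, fun h4 => ?_⟩
    obtain ⟨y, -, hy⟩ := mem_biUnion.1 h4
    by_cases hxy : x = y
    · subst hxy; exact h3 hy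
    · exact h.nadj hp hm hxy h1 h2 hy

/-- **The common edges of the frame and of the domain** are the near edges of the rows. -/
theorem Rows.common (h : Rows l n m i s e) (hp : IsPolygon p) (hD : Encloses p S₀) (hm : 4 ≤ m)
    {x : ι} {g : Ed} (hg : g ∈ bS (enl S₀ n)) :
    g ∈ bS (rowP p n (i x) (s x) (e x)) ↔
      ∃ σ : ℕ, s x ≤ σ ∧ σ < e x ∧ g = ce (vp p n (i x) σ) (pdir p (i x)) := by
  have a1 := h.lo x
  have a2 := h.hi x
  constructor
  · intro h1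
    obtain ⟨v, w, h2, h3, h4⟩ := mem_bS_two.1 h1
    obtain ⟨σ, h5, h6, rfl⟩ := mem_rowP.1 h3
    exact ⟨σ, h5, h6, edge_op hp hD (h.lt x) (by omega) (by omega) hg h2⟩
  · rintro ⟨σ, h1, h2, rfl⟩
    exact mem_bS_row.2 (Or.inl ⟨σ, h1, h2, Or.inl rfl⟩)

/-- In terms of the steps of the polygon. -/
theorem Rows.be_mem (h : Rows l n m i s e) (hp : IsPolygon p) (hD : Encloses p S₀) (hm : 4 ≤ m)
    (ht : t < n) {x : ι} {i' σ' : ℕ} (hi' : i' < l) (hσ' : σ' < n) :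
    be (qN p n t) ((kOf l n t i' σ' : ℕ) : ZMod (l * n)) ∈ bS (rowP p n (i x) (s x) (e x)) ↔
      i' = i x ∧ s x ≤ σ' ∧ σ' < e x := by
  have hn : 0 < n := by omega
  have a1 := h.lo x
  have a2 := h.hi x
  have hg : be (qN p n t) ((kOf l n t i' σ' : ℕ) : ZMod (l * n)) ∈ bS (enl S₀ n) := by
    rw [be_vp hp hi' ht hσ']
    exact (mem_bS_enl hp hD hn).2 ⟨i', σ', hi', hσ', rfl⟩
  rw [h.common hp hD hm hg]
  constructor
  · rintro ⟨σ, h1, h2, h3⟩
    rw [← be_vp (t := t) hp (h.lt x) ht (by omega)] at h3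
    obtain ⟨rfl, rfl⟩ := be_kOf_inj hp ht hi' (h.lt x) hσ' (by omega) h3
    exact ⟨rfl, h1, h2⟩
  · rintro ⟨rfl, h1, h2⟩
    exact ⟨σ', h1, h2, be_vp hp hi' ht hσ'⟩

/-- **Holes**: the boundary edges of the domain which are not edges of the frame. -/
theorem Rows.hole [Fintype ι] (h : Rows l n m i s e) (hp : IsPolygon p) (hD : Encloses p S₀)
    (hm : 4 ≤ m) (hn : 0 < n) {g : Ed} (hg : g ∈ bS (enl S₀ n)) (hg' : g ∉ bS (frm p n i s e)) :
    ∃ i' σ : ℕ, i' < l ∧ σ < n ∧ g = ce (vp p n i' σ) (pdir p i') ∧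
      ∀ x, i x = i' → ¬ (s x ≤ σ ∧ σ < e x) := by
  obtain ⟨i', σ, hi', hσ, rfl⟩ := (mem_bS_enl hp hD hn).1 hg
  refine ⟨i', σ, hi', hσ, rfl, ?_⟩
  rintro x rfl ⟨h1, h2⟩
  apply hg'
  rw [h.bS_frm hp hm, mem_biUnion]
  exact ⟨x, mem_univ _, (h.common hp hD hm hg).2 ⟨σ, h1, h2, rfl⟩⟩

end Vale.Agent.P167.Enl
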