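import Vale.Agent.P167.H592.T.Box
import Vale.Agent.P167.H825.Q.FrmH
import Vale.Agent.P167.H871.Q.Win

/-!
# P167, general `q`, START: the windows of the holes of the frame `PT`

Every hole of the frame `PT` is a hole in the sense of `H871.Q.HoleW`.
-/

namespace Vale.Agent.P167.Enl

open Finset
open Vale.Agent.P167.Top
open Vale.Agent.P167.A (plane plane_sg)
open Vale.Agent.P167.E6 (IsPolygon Encloses dir face)
open Vale.Agent.P167.H825 (enl pdir epos Marks FlowIn ptau bsite)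
open Vale.Agent.P167.BR (ce be)
open Vale.Agent.P167.XDL (bS mem_bS)
open Vale.Agent.P167.FK (Bq)
open Vale.Agent.P167.H662 (hsite)
open Vale.Agent.P167.H199 (Gap ah at' hb)
open Vale.Agent.P167.H825.Q (Row Bc frow stΦ stτ PT)
open Vale.Agent.P167.H871.Q (Lq Wn rA rB RW Lq_rel box_of rA_not rB_not rA_rB HoleW)

variable {l : ℕ} {p : ZMod l → ℤ × ℤ} {n : ℕ} {S₀ : Finset (ℤ × ℤ)} {Q : Marks} {bc : Bc} {d : ℕ}
  {θ β : ℝ}

/-! ### coordinates -/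

/-- The coordinates of the squares of a row. -/
theorem Lq_oz {r : Fin 4} {u : ℤ} (hu : u % 4 = ((r.val : ℕ) : ℤ)) (z : ℤ × ℤ) (q σ : ℤ) :
    Lq (vz z r q) u (oz z r σ) = (σ - q, -1) := by
  obtain ⟨h0, h1, h2, h3⟩ := oz_eq z σ
  obtain ⟨k0, k1, k2, k3⟩ := vz_eq z q
  unfold Lq
  rcases fin4_cases r with rfl | rfl | rfl | rfl
  · have hu' : u % 4 = 0 := by simpa using hu
    rcases head_cases u with ⟨a, b, c⟩ | ⟨a, b, c⟩ | ⟨a, b, c⟩ | ⟨a, b, c⟩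
    · rw [h0, k0, b, c]; simp
    all_goals exfalso; omega
  · have hu' : u % 4 = 1 := by simpa using hu
    rcases head_cases u with ⟨a, b, c⟩ | ⟨a, b, c⟩ | ⟨a, b, c⟩ | ⟨a, b, c⟩
    · exfalso; omega
    · rw [h1, k1, b, c]; simp
    all_goals exfalso; omega
  · have hu' : u % 4 = 2 := by simpa using hu
    rcases head_cases u with ⟨a, b, c⟩ | ⟨a, b, c⟩ | ⟨a, b, c⟩ | ⟨a, b, c⟩
    · exfalso; omega
    · exfalso; omega
    · rw [h2, k2, b, c]; simp; ring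
    · exfalso; omega
  · have hu' : u % 4 = 3 := by simpa using hu
    rcases head_cases u with ⟨a, b, c⟩ | ⟨a, b, c⟩ | ⟨a, b, c⟩ | ⟨a, b, c⟩
    · exfalso; omega
    · exfalso; omega
    · exfalso; omega
    · rw [h3, k3, b, c]; simp; ring

/-- Neighbours in the coordinates of a frame. -/
theorem Lq_nb {z : ℤ × ℤ} {u : ℤ} {g : Ed} {v w : ℤ × ℤ} (h : Two g v w) :
    ((Lq z u w).1 = (Lq z u v).1 + 1 ∧ (Lq z u w).2 = (Lq z u v).2) ∨
    ((Lq z u w).1 = (Lq z u v).1 - 1 ∧ (Lq z u w).2 = (Lq z u v).2) ∨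
    ((Lq z u w).1 = (Lq z u v).1 ∧ (Lq z u w).2 = (Lq z u v).2 + 1) ∨
    ((Lq z u w).1 = (Lq z u v).1 ∧ (Lq z u w).2 = (Lq z u v).2 - 1) := by
  unfold Lq
  rcases h.nb with h | h | h | h <;> rw [h] <;>
    rcases head_cases u with ⟨a, b, c⟩ | ⟨a, b, c⟩ | ⟨a, b, c⟩ | ⟨a, b, c⟩ <;>
    rw [b, c] <;> simp only <;> omega

/-- The coordinates determine the square. -/
theorem Lq_inj {z : ℤ × ℤ} {u : ℤ} {v w : ℤ × ℤ} (h : Lq z u v = Lq z u w) : v = w := by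
  obtain ⟨v1, v2⟩ := v
  obtain ⟨w1, w2⟩ := w
  unfold Lq at h
  rw [Prod.ext_iff] at h ⊢
  rcases head_cases u with ⟨a, b, c⟩ | ⟨a, b, c⟩ | ⟨a, b, c⟩ | ⟨a, b, c⟩ <;>
    rw [b, c] at h <;> simp only at h ⊢ <;> omega

/-- The box in the coordinates of a frame. -/
theorem Lq_box {z : ℤ × ℤ} {u R : ℤ} {v : ℤ × ℤ} : v ∈ Bq z R ↔
    (-R ≤ (Lq z u v).1 ∧ (Lq z u v).1 < R ∧ -R ≤ (Lq z u v).2 ∧ (Lq z u v).2 < R) := by
  obtain ⟨v1, v2⟩ := v
  unfold Bq Lq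
  rw [mem_product, mem_Ico, mem_Ico]
  rcases head_cases u with ⟨a, b, c⟩ | ⟨a, b, c⟩ | ⟨a, b, c⟩ | ⟨a, b, c⟩ <;>
    rw [b, c] <;> simp only <;> constructor <;> intro h <;> omega

/-- Squares of the box off the rows are in the window. -/
theorem in_Wn {z : ℤ × ℤ} {u κ : ℤ} {A B R : ℕ} (hκ : κ = 0 ∨ κ = 1 ∨ κ = -1) {v : ℤ × ℤ}
    (h : v ∈ Bq z R) (hA : v ∉ rA z u A R) (hB : v ∉ rB z u κ B R) : v ∈ Wn z u κ A B R := by
  have h1 := (Lq_box (u := u)).1 h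
  have h2 := (Lq_box (u := κ + u)).1 h
  have h3 := Lq_rel z u v hκ
  unfold rA at hA
  unfold rB at hB
  rw [Set.mem_ofPred_eq] at hA hB
  unfold Wn RW
  rw [Set.mem_ofPred_eq]
  rcases hκ with rfl | rfl | rfl
  · rw [if_pos rfl] at h3 ⊢
    rw [← h3] at hB
    unfold H871.Q.R0
    rw [Set.mem_ofPred_eq]
    refine ⟨h1.1, h1.2.1, h1.2.2.1, h1.2.2.2, fun h4 => hA ⟨h4.2, h1.1, h4.1⟩,
      fun h4 => hB ⟨h4.2, h4.1, h1.2.1⟩⟩
  · rw [if_neg (by norm_num), if_pos rfl] at h3 ⊢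
    have e1 := congrArg Prod.fst h3
    have e2 := congrArg Prod.snd h3
    simp only at e1 e2
    unfold H871.Q.R1
    rw [Set.mem_ofPred_eq]
    refine ⟨h1.1, h1.2.1, h1.2.2.1, h1.2.2.2, fun h4 => hA ⟨h4.2, h1.1, h4.1⟩, fun h4 => hB ?_⟩
    omega
  · rw [if_neg (by norm_num), if_neg (by norm_num)] at h3 ⊢
    have e1 := congrArg Prod.fst h3
    have e2 := congrArg Prod.snd h3
    simp only at e1 e2
    unfold H871.Q.R2
    rw [Set.mem_ofPred_eq]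
    refine ⟨h1.1, h1.2.1, h1.2.2.1, h1.2.2.2, fun h4 => hA ⟨h4.2, h1.1, h4.1⟩, fun h4 => hB ?_⟩
    omega

/-! ### directions -/

/-- The lifted directions modulo `4`. -/
theorem uN_mod (hp : IsPolygon p) (hD : Encloses p S₀) {t i σ : ℕ} (ht : t < n) (hi : i < l)
    (hσ : σ < n) : uN p n t (kOf l n t i σ) % 4 = (((pdir p i).val : ℕ) : ℤ) := by
  have hn : 0 < n := by omega
  have h1 := (bd_qN hn hp hD ht).step (kOf l n t i σ)
  have h2 := qN_succ hn hp (t := t) (m := kOf l n t i σ + t)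
    (k := ((kOf l n t i σ : ℕ) : ZMod (l * n))) (by push_cast; rfl)
  push_cast at h1
  rw [h2] at h1
  have h3 := add_left_cancel h1
  rw [← H871.vec_fin] at h3
  have h4 := vec_eq_mod h3
  have h5 : pdir p ((kOf l n t i σ + t) / n) = pdir p i := by
    rw [kOf_div hσ hi ht]
    split_ifs
    · rfl
    · rw [add_comm, pdir_add]
  rw [h5] at h4
  have h6 := (pdir p i).isLt
  omega

/-! ### the rows at a hole -/

/-- The side before the mark. -/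
def iB (l : ℕ) {m : ℕ} (x : Fin l × Fin (m + 1)) : ℕ :=
  if (x.2 : ℕ) = 0 then (if (x.1 : ℕ) = 0 then l - 1 else x.1 - 1) else x.1

/-- The number on its side of the row before the mark. -/
def jB {l m : ℕ} (x : Fin l × Fin (m + 1)) : ℕ := if (x.2 : ℕ) = 0 then m else x.2 - 1

/-- The position of the mark on the side before it. -/
noncomputable def pB (n : ℕ) (Q : Marks) (x : Fin l × Fin (Q.m + 1)) : ℕ :=
  ⌊Q.θ (iB l x) (jB x + 1) * n⌋₊

/-- The position of the mark on its side. -/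
noncomputable def pA (n : ℕ) (Q : Marks) (x : Fin l × Fin (Q.m + 1)) : ℕ := ⌊Q.θ x.1 x.2 * n⌋₊

theorem iB_lt (x : Fin l × Fin (Q.m + 1)) : iB l x < l := by
  have := x.1.2
  unfold iB
  split_ifs <;> omega

theorem jB_le (x : Fin l × Fin (Q.m + 1)) : jB x ≤ Q.m := by
  have := x.2.2
  unfold jB
  split_ifs <;> omega

theorem pB_zero (hQ : Q.Ok) {x : Fin l × Fin (Q.m + 1)} (h : (x.2 : ℕ) = 0) : pB n Q x = n := by
  unfold pB jB
  rw [if_pos h, fl_one hQ]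

theorem pB_pos {x : Fin l × Fin (Q.m + 1)} (h : (x.2 : ℕ) ≠ 0) :
    pB n Q x = pA n Q x ∧ iB l x = x.1 ∧ jB x + 1 = x.2 := by
  unfold pB pA jB iB
  rw [if_neg h, if_neg h]
  have : (x.2 : ℕ) - 1 + 1 = x.2 := by omega
  rw [this]
  exact ⟨rfl, rfl, rfl⟩

theorem pA_zero (hQ : Q.Ok) {x : Fin l × Fin (Q.m + 1)} (h : (x.2 : ℕ) = 0) : pA n Q x = 0 := by
  unfold pA
  rw [h, fl_zero hQ]

/-- The next side. -/
theorem iB_succ {x : Fin l × Fin (Q.m + 1)} (h : (x.2 : ℕ) = 0) :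
    iB l x + 1 = x.1 ∨ (iB l x + 1 = l ∧ (x.1 : ℕ) = 0) := by
  have := x.1.2
  unfold iB
  rw [if_pos h]
  split_ifs <;> omega

theorem vp_pA (x : Fin l × Fin (Q.m + 1)) : vp p n x.1 (pA n Q x : ℤ) = hsite p Q n x := rfl

theorem vp_pB (hp : IsPolygon p) (hQ : Q.Ok) (x : Fin l × Fin (Q.m + 1)) :
    vp p n (iB l x) (pB n Q x : ℤ) = hsite p Q n x := by
  by_cases h : (x.2 : ℕ) = 0
  · rw [pB_zero hQ h, ← vp_pA, pA_zero hQ h]
    have e1 : p ((iB l x + 1 : ℕ) : ZMod l) = p ((iB l x : ℕ) : ZMod l) + dir (pdir p (iB l x)) := by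
      rw [← pdir_step hp]
      push_cast
      rfl
    have e2 : p ((iB l x + 1 : ℕ) : ZMod l) = p ((x.1 : ℕ) : ZMod l) := by
      rcases iB_succ h with h1 | ⟨h1, h2⟩
      · rw [h1]
      · rw [h1, h2, ZMod.natCast_self, Nat.cast_zero]
    unfold vp vz
    rw [← smul_add, ← e1, e2]
    simp
  · obtain ⟨h1, h2, -⟩ := pB_pos (n := n) h
    rw [h1, h2, vp_pA]

/-- **The steps in the window of a mark** are just before or just after the mark. -/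
theorem window2 (hp : IsPolygon p) (hQ : Q.Ok) {g : ℝ} (hg : Gap Q l g) {m : ℤ}
    (hm : (2 * m : ℝ) + 2 < g * n) {x : Fin l × Fin (Q.m + 1)} {i σ : ℕ} (hi : i < l)
    (hσ : σ < n) (h : nm (vp p n i σ - hsite p Q n x) ≤ m) :
    (i = x.1 ∧ pA n Q x ≤ σ ∧ (σ : ℤ) ≤ pA n Q x + m) ∨
      (i = iB l x ∧ σ < pB n Q x ∧ (pB n Q x : ℤ) ≤ σ + m) := by
  rcases window hp hQ hg hm hi hσ h with ⟨h1, h2⟩ | ⟨h1, h2, h3⟩
  · change |(σ : ℤ) - (pA n Q x : ℕ)| ≤ m at h2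
    rw [abs_le] at h2
    by_cases h3 : pA n Q x ≤ σ
    · exact Or.inl ⟨h1, h3, by omega⟩
    · right
      have h4 : (x.2 : ℕ) ≠ 0 := fun h4 => by
        rw [pA_zero hQ h4] at h3
        omega
      obtain ⟨h5, h6, -⟩ := pB_pos (n := n) h4
      rw [h5, h6]
      exact ⟨h1, by omega, by omega⟩
  · right
    rw [pB_zero hQ h1]
    refine ⟨?_, hσ, by omega⟩
    unfold iB
    rw [if_pos h1]
    split_ifs <;> omega

/-! ### the base point is far from the marks -/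

theorem base_far (hQ : Q.Ok) {g : ℝ} (hg : Gap Q l g) {m : ℤ} (hm0 : 0 ≤ m)
    (hm : (2 * m : ℝ) + 2 < g * n) (x : Fin l × Fin (Q.m + 1)) :
    (m < (tB n Q : ℤ) ∧ (tB n Q : ℤ) + m < n) ∧
      ((x.1 : ℕ) = 0 → m < |(pA n Q x : ℤ) - tB n Q|) := by
  have hn0 : (0 : ℝ) ≤ n := Nat.cast_nonneg n
  obtain ⟨f1, f2, -⟩ := fl hQ n x.1 (show (x.2 : ℕ) ≤ Q.m + 1 by omega)
  have hmR : (0 : ℝ) ≤ m := by exact_mod_cast hm0
  have t0 := hQ.tp0
  have t1 := hQ.tp1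
  have tf1 : (tB n Q : ℝ) ≤ Q.tp * n := Nat.floor_le (by positivity)
  have tf2 : Q.tp * n < tB n Q + 1 := Nat.lt_floor_add_one _
  refine ⟨?_, fun hx => ?_⟩
  · have a := hg.2 0 (by omega)
    have b := hg.2 (Q.m + 1) le_rfl
    rw [hQ.zero, zero_sub, abs_neg, abs_of_pos t0] at a
    rw [hQ.one, abs_of_pos (by linarith)] at b
    have a' : g * n ≤ Q.tp * n := mul_le_mul_of_nonneg_right a hn0
    have b' : g * n ≤ (1 - Q.tp) * n := mul_le_mul_of_nonneg_right b hn0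
    constructor
    · have : (m : ℝ) < tB n Q := by linarith
      exact_mod_cast this
    · have : (tB n Q : ℝ) + m < n := by linarith
      exact_mod_cast this
  · have a := hg.2 x.2 (by omega)
    have a' : g * n ≤ |Q.θ 0 x.2 - Q.tp| * n := mul_le_mul_of_nonneg_right a hn0
    rw [hx] at f1 f2
    have b : |Q.θ 0 x.2 - Q.tp| * n = |Q.θ 0 x.2 * n - Q.tp * n| := by
      rw [← sub_mul, abs_mul, abs_of_nonneg hn0]
    have c : |Q.θ 0 x.2 * n - Q.tp * n| ≤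
        |((⌊Q.θ 0 x.2 * n⌋₊ : ℕ) : ℝ) - (tB n Q : ℕ)| + 1 := by
      have e1 : Q.θ 0 x.2 * n - Q.tp * n = ((⌊Q.θ 0 x.2 * n⌋₊ : ℕ) : ℝ) - (tB n Q : ℕ) +
        ((Q.θ 0 x.2 * n - ⌊Q.θ 0 x.2 * n⌋₊) - (Q.tp * n - tB n Q)) := by ring
      rw [e1]
      refine (abs_add_le _ _).trans (add_le_add_right ?_ _)
      rw [abs_le]
      constructor <;> linarith
    have c' : (m : ℝ) < |((⌊Q.θ 0 x.2 * n⌋₊ : ℕ) : ℝ) - (tB n Q : ℕ)| := by
      linarith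
    unfold pA
    rw [hx]
    exact_mod_cast c'

/-- The lifted direction after the mark. -/
noncomputable def uA (p : ZMod l → ℤ × ℤ) (n : ℕ) (Q : Marks) (x : Fin l × Fin (Q.m + 1)) : ℤ :=
  uN p n (tB n Q) (kOf l n (tB n Q) x.1 (pA n Q x))

/-- The lifted direction before the mark. -/
noncomputable def uB (p : ZMod l → ℤ × ℤ) (n : ℕ) (Q : Marks) (x : Fin l × Fin (Q.m + 1)) : ℤ :=
  uN p n (tB n Q) (kOf l n (tB n Q) (iB l x) (pB n Q x - 1))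

/-- Two steps of a side on the same side of the base point. -/
theorem uN_same {t i σ σ' : ℕ} (hi : i < l) (ht : t < n) (hσ : σ < n) (hσ' : σ' < n)
    (h : t ≤ i * n + σ ↔ t ≤ i * n + σ') :
    uN p n t (kOf l n t i σ) = uN p n t (kOf l n t i σ') := by
  rw [uN_kOf hi ht hσ, uN_kOf hi ht hσ']
  by_cases h1 : t ≤ i * n + σ
  · rw [if_pos h1, if_pos (h.1 h1)]
  · rw [if_neg h1, if_neg fun h2 => h1 (h.2 h2)]

theorem kOf_pB (hQ : Q.Ok) {g : ℝ} (hg : Gap Q l g) {m : ℤ} (hm0 : 0 ≤ m)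
    (hm : (2 * m : ℝ) + 2 < g * n) (x : Fin l × Fin (Q.m + 1)) :
    kOf l n (tB n Q) (iB l x) (pB n Q x - 1) + 1 = kOf l n (tB n Q) x.1 (pA n Q x) := by
  obtain ⟨⟨h1, h2⟩, h3⟩ := base_far hQ hg hm0 hm x
  have hx := x.1.2
  by_cases h : (x.2 : ℕ) = 0
  · rw [pB_zero hQ h, pA_zero hQ h]
    rcases iB_succ h with h4 | ⟨h4, h5⟩
    · rw [← h4]
      unfold kOf
      have h6 : n ≤ (iB l x + 1) * n := Nat.le_mul_of_pos_left n (by omega)
      rw [add_mul, one_mul] at h6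
      rw [if_pos (by omega), add_mul, one_mul, if_pos (by omega)]
      omega
    · rw [h5]
      have h6 : (iB l x + 1) * n = l * n := by rw [h4]
      rw [add_mul, one_mul] at h6
      unfold kOf
      rw [if_pos (by omega), if_neg (by omega)]
      omega
  · obtain ⟨h4, h5, -⟩ := pB_pos (n := n) h
    rw [h4, h5]
    have h6 : 0 < pA n Q x := by
      have h7 := hg.1 x.1 hx (x.2 - 1) (by omega)
      have h8 := theta_nonneg hQ x.1 (j := x.2 - 1) (by omega)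
      rw [show (x.2 : ℕ) - 1 + 1 = x.2 by omega] at h7
      unfold pA
      rw [Nat.floor_pos]
      have hn0 : (0 : ℝ) ≤ n := Nat.cast_nonneg n
      have h9 : g * n ≤ Q.θ x.1 x.2 * n := mul_le_mul_of_nonneg_right (by linarith) hn0
      have hm0' : (0 : ℝ) ≤ m := by exact_mod_cast hm0
      linarith
    unfold kOf
    by_cases h7 : (x.1 : ℕ) = 0
    · have h8 := h3 h7
      rw [h7]
      have h11 : n ≤ l * n := Nat.le_mul_of_pos_left n (by omega)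
      have h9 : pA n Q x ≠ tB n Q := fun h10 => by
        rw [h10, sub_self, abs_zero] at h8
        omega
      split_ifs <;> omega
    · have h8 : n ≤ (x.1 : ℕ) * n := Nat.le_mul_of_pos_left n (by omega)
      rw [if_pos (by omega), if_pos (by omega)]
      omega

/-- **The corner at a mark.** -/
theorem turn_mark (hp : IsPolygon p) (hD : Encloses p S₀) (hQ : Q.Ok) {g : ℝ} (hg : Gap Q l g)
    {m : ℤ} (hm0 : 0 ≤ m) (hm : (2 * m : ℝ) + 2 < g * n) (hn : 0 < n)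
    (x : Fin l × Fin (Q.m + 1)) : uA p n Q x - uB p n Q x = 0 ∨ uA p n Q x - uB p n Q x = 1 ∨
      uA p n Q x - uB p n Q x = -1 := by
  have h := (bd_qN hn hp hD (tB_lt hQ hn)).turn (kOf l n (tB n Q) (iB l x) (pB n Q x - 1))
  rw [kOf_pB hQ hg hm0 hm x] at h
  change |uA p n Q x - uB p n Q x| ≤ 1 at h
  rw [abs_le] at h
  omega

/-- The direction on the window after the mark. -/
theorem uN_after (hQ : Q.Ok) {g : ℝ} (hg : Gap Q l g) {m : ℤ} (hm0 : 0 ≤ m)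
    (hm : (2 * m : ℝ) + 2 < g * n) (hn : 0 < n) (x : Fin l × Fin (Q.m + 1)) {σ : ℕ}
    (hσ : σ < n) (h1 : pA n Q x ≤ σ) (h2 : (σ : ℤ) ≤ pA n Q x + m) :
    uN p n (tB n Q) (kOf l n (tB n Q) x.1 σ) = uA p n Q x := by
  obtain ⟨⟨h3, h4⟩, h5⟩ := base_far hQ hg hm0 hm x
  refine uN_same x.1.2 (tB_lt hQ hn) hσ (by omega) ?_
  by_cases h7 : (x.1 : ℕ) = 0
  · have h8 := h5 h7
    rw [h7, lt_abs] at *
    constructor <;> intro h9 <;> omega
  · have h8 : n ≤ (x.1 : ℕ) * n := Nat.le_mul_of_pos_left n (by omega)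
    constructor <;> intro h9 <;> omega

theorem pB_le (hQ : Q.Ok) (x : Fin l × Fin (Q.m + 1)) : pB n Q x ≤ n :=
  (fl hQ n (iB l x) (show jB x + 1 ≤ Q.m + 1 by have := jB_le x; omega)).2.2

/-- The direction on the window before the mark. -/
theorem uN_before (hQ : Q.Ok) {g : ℝ} (hg : Gap Q l g) {m : ℤ} (hm0 : 0 ≤ m)
    (hm : (2 * m : ℝ) + 2 < g * n) (hn : 0 < n) (x : Fin l × Fin (Q.m + 1)) {σ : ℕ}
    (hσ : σ < pB n Q x) (h2 : (pB n Q x : ℤ) ≤ σ + m) :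
    uN p n (tB n Q) (kOf l n (tB n Q) (iB l x) σ) = uB p n Q x := by
  obtain ⟨⟨h3, h4⟩, h5⟩ := base_far hQ hg hm0 hm x
  have h6 := pB_le (n := n) hQ x
  refine uN_same (iB_lt x) (tB_lt hQ hn) (by omega) (by omega) ?_
  by_cases h7 : iB l x = 0
  · rw [h7, zero_mul, zero_add, zero_add]
    by_cases h : (x.2 : ℕ) = 0
    · rw [pB_zero hQ h] at *
      constructor <;> intro h9 <;> omega
    · obtain ⟨h8, h9, -⟩ := pB_pos (n := n) h
      rw [h9] at h7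
      have h10 := h5 h7
      rw [← h8, lt_abs] at h10
      constructor <;> intro h9 <;> omega
  · have h8 : n ≤ iB l x * n := Nat.le_mul_of_pos_left n (by omega)
    constructor <;> intro h9 <;> omega

theorem uA_mod (hp : IsPolygon p) (hD : Encloses p S₀) (hQ : Q.Ok) (hn : 0 < n)
    (x : Fin l × Fin (Q.m + 1)) (h : pA n Q x < n) :
    uA p n Q x % 4 = (((pdir p x.1).val : ℕ) : ℤ) := uN_mod hp hD (tB_lt hQ hn) x.1.2 h

theorem uB_mod (hp : IsPolygon p) (hD : Encloses p S₀) (hQ : Q.Ok) (hn : 0 < n)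
    (x : Fin l × Fin (Q.m + 1)) :
    uB p n Q x % 4 = (((pdir p (iB l x)).val : ℕ) : ℤ) :=
  uN_mod hp hD (tB_lt hQ hn) (iB_lt x) (by have := pB_le (n := n) hQ x; omega)

theorem pA_lt (hQ : Q.Ok) (hn : 0 < n) (x : Fin l × Fin (Q.m + 1)) : pA n Q x < n := by
  have hn0 : (0 : ℝ) < n := by exact_mod_cast hn
  have h1 := hQ.lt x.1 x.2 (by omega)
  have h2 := theta_le_one hQ x.1 (j := x.2 + 1) (by omega)
  have h3 := (fl hQ n x.1 (show (x.2 : ℕ) ≤ Q.m + 1 by omega)).1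
  have h4 : ((pA n Q x : ℕ) : ℝ) < n := by
    unfold pA
    nlinarith
  exact_mod_cast h4

/-- The coordinates after the mark. -/
theorem Lq_after (hp : IsPolygon p) (hD : Encloses p S₀) (hQ : Q.Ok) (hn : 0 < n)
    (x : Fin l × Fin (Q.m + 1)) (σ : ℤ) :
    Lq (hsite p Q n x) (uA p n Q x) (op p n x.1 σ) = (σ - pA n Q x, -1) := by
  rw [← vp_pA]
  exact Lq_oz (uA_mod hp hD hQ hn x (pA_lt hQ hn x)) _ _ _

/-- The coordinates before the mark. -/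
theorem Lq_before (hp : IsPolygon p) (hD : Encloses p S₀) (hQ : Q.Ok) (hn : 0 < n)
    (x : Fin l × Fin (Q.m + 1)) (σ : ℤ) :
    Lq (hsite p Q n x) (uB p n Q x) (op p n (iB l x) σ) = (σ - pB n Q x, -1) := by
  rw [← vp_pB hp hQ x]
  exact Lq_oz (uB_mod hp hD hQ hn x) _ _ _

/-! ### the rows in the box of a hole -/

/-- Distance of the row before the mark. -/
noncomputable def gB (p : ZMod l → ℤ × ℤ) (n : ℕ) (Q : Marks) (d : ℕ)
    (x : Fin l × Fin (Q.m + 1)) : ℕ := pB n Q x - eW p n Q d (iB l x) (jB x)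

/-- Distance of the row after the mark. -/
noncomputable def gA (p : ZMod l → ℤ × ℤ) (n : ℕ) (Q : Marks) (d : ℕ)
    (x : Fin l × Fin (Q.m + 1)) : ℕ := sW p n Q d x.1 x.2 - pA n Q x

/-- The positions of the rows at a hole. -/
theorem row_pos (hQ : Q.Ok) {g δ : ℝ} (hg : Gap Q l g) (hδ : 0 < δ) (hδg : 4 * δ ≤ g)
    (hn : 16 ≤ δ * n) (x : Fin l × Fin (Q.m + 1)) :
    (gB p n Q ⌊δ * n⌋₊ x + eW p n Q ⌊δ * n⌋₊ (iB l x) (jB x) = pB n Q x ∧
      ⌊δ * n⌋₊ ≤ gB p n Q ⌊δ * n⌋₊ x + 1 ∧ gB p n Q ⌊δ * n⌋₊ x ≤ ⌊δ * n⌋₊) ∧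
    (gA p n Q ⌊δ * n⌋₊ x + pA n Q x = sW p n Q ⌊δ * n⌋₊ x.1 x.2 ∧
      ⌊δ * n⌋₊ ≤ gA p n Q ⌊δ * n⌋₊ x ∧ gA p n Q ⌊δ * n⌋₊ x ≤ ⌊δ * n⌋₊ + 1) := by
  have h1 : 1 ≤ ⌊δ * n⌋₊ := Nat.le_floor (by push_cast; linarith)
  have s1 := le_rnd ((n : ℤ) • p x.1) (bsite p Q n) (⌊Q.θ x.1 x.2 * n⌋₊ + ⌊δ * n⌋₊)
  have s2 := le_rnd ((n : ℤ) • p (iB l x)) (bsite p Q n)
    (⌊Q.θ (iB l x) (jB x + 1) * n⌋₊ - ⌊δ * n⌋₊)
  have h2 := (ends_bd (p := p) hQ hg hδ hδg hn (iB_lt x) (jB_le x)).2.2.2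
  change _ ≤ sW p n Q ⌊δ * n⌋₊ x.1 x.2 ∧ sW p n Q ⌊δ * n⌋₊ x.1 x.2 ≤ _ at s1
  change _ ≤ eW p n Q ⌊δ * n⌋₊ (iB l x) (jB x) ∧ eW p n Q ⌊δ * n⌋₊ (iB l x) (jB x) ≤ _ at s2
  have e1 : pA n Q x = ⌊Q.θ x.1 x.2 * n⌋₊ := rfl
  have e2 : pB n Q x = ⌊Q.θ (iB l x) (jB x + 1) * n⌋₊ := rfl
  unfold gB gA
  rw [e1, e2]
  omega

/-- **The squares of the frame in the box of a hole.** -/
theorem frm_box (hp : IsPolygon p) (hQ : Q.Ok) {g δ : ℝ} (hg : Gap Q l g) (hδ : 0 < δ)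
    (hδg : 4 * δ ≤ g) (hn : 16 ≤ δ * n) {m : ℤ} (hm : (2 * m : ℝ) + 2 < g * n)
    {x y : Fin l × Fin (Q.m + 1)} {σ : ℕ} (h1 : sW p n Q ⌊δ * n⌋₊ y.1 y.2 ≤ σ)
    (h2 : σ < eW p n Q ⌊δ * n⌋₊ y.1 y.2) (h : nm (vp p n y.1 σ - hsite p Q n x) ≤ m) :
    (y = x ∧ pA n Q x + gA p n Q ⌊δ * n⌋₊ x ≤ σ ∧ (σ : ℤ) ≤ pA n Q x + m) ∨
      ((y.1 : ℕ) = iB l x ∧ (y.2 : ℕ) = jB x ∧ σ + gB p n Q ⌊δ * n⌋₊ x < pB n Q x ∧
        (pB n Q x : ℤ) ≤ σ + m) := by
  have hd1 : 1 ≤ ⌊δ * n⌋₊ := Nat.le_floor (by push_cast; linarith)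
  have hn0 : (0 : ℝ) ≤ n := Nat.cast_nonneg n
  obtain ⟨e1, e2⟩ := eW_le h1 h2
  have hσ := lt_n hQ hd1 (Nat.lt_succ_iff.1 y.2.isLt) h1 h2
  obtain ⟨⟨p1, p2, p3⟩, ⟨p4, p5, p6⟩⟩ := row_pos (p := p) hQ hg hδ hδg hn x
  have hm0 : 0 ≤ m := (nm_nonneg _).trans h
  have hm0' : (0 : ℝ) ≤ m := by exact_mod_cast hm0
  rcases window2 hp hQ hg hm y.1.2 hσ h with ⟨a1, a2, a3⟩ | ⟨a1, a2, a3⟩
  · left
    have a4 : y.1 = x.1 := Fin.ext a1
    have a5 : (y.2 : ℕ) = x.2 := by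
      rcases lt_trichotomy (y.2 : ℕ) x.2 with a6 | a6 | a6
      · exfalso
        have a7 : ⌊Q.θ y.1 (y.2 + 1) * n⌋₊ ≤ pA n Q x := by
          unfold pA
          rw [a1]
          exact Nat.floor_le_floor (mul_le_mul_of_nonneg_right
            (theta_mono hQ x.1 (by omega) (by omega)) hn0)
        omega
      · exact a6
      · exfalso
        have a7 : ⌊Q.θ x.1 (x.2 + 1) * n⌋₊ ≤ ⌊Q.θ y.1 y.2 * n⌋₊ := by
          rw [a1]
          exact Nat.floor_le_floor (mul_le_mul_of_nonneg_right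
            (theta_mono hQ x.1 (by omega) (by omega)) hn0)
        have a8 := (fl hQ n x.1 (show (x.2 : ℕ) + 1 ≤ Q.m + 1 by omega)).2.1
        have a9 := (fl hQ n x.1 (show (x.2 : ℕ) ≤ Q.m + 1 by omega)).1
        have a10 := hg.1 x.1 x.1.2 x.2 (by omega)
        have a11 : g * n ≤ (Q.θ x.1 (x.2 + 1) - Q.θ x.1 x.2) * n :=
          mul_le_mul_of_nonneg_right (by linarith) hn0
        have a12 : ((pA n Q x : ℕ) : ℝ) + m < (⌊Q.θ x.1 (x.2 + 1) * n⌋₊ : ℕ) := by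
          unfold pA
          linarith
        have a13 : (pA n Q x : ℤ) + m < (⌊Q.θ x.1 (x.2 + 1) * n⌋₊ : ℕ) := by exact_mod_cast a12
        omega
    refine ⟨Prod.ext a4 (Fin.ext a5), ?_, a3⟩
    rw [a1, a5] at h1
    omega
  · right
    have a5 : (y.2 : ℕ) = jB x := by
      have b1 := jB_le x
      have b2 := iB_lt x
      have b3 : pB n Q x = ⌊Q.θ (iB l x) (jB x + 1) * n⌋₊ := rfl
      rcases lt_trichotomy (y.2 : ℕ) (jB x) with a6 | a6 | a6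
      · exfalso
        have a7 : ⌊Q.θ y.1 (y.2 + 1) * n⌋₊ ≤ ⌊Q.θ (iB l x) (jB x) * n⌋₊ := by
          rw [a1]
          exact Nat.floor_le_floor (mul_le_mul_of_nonneg_right
            (theta_mono hQ (iB l x) (by omega) (by omega)) hn0)
        have a8 := (fl hQ n (iB l x) (show jB x + 1 ≤ Q.m + 1 by omega)).2.1
        have a9 := (fl hQ n (iB l x) (show jB x ≤ Q.m + 1 by omega)).1
        have a10 := hg.1 (iB l x) b2 (jB x) b1
        have a11 : g * n ≤ (Q.θ (iB l x) (jB x + 1) - Q.θ (iB l x) (jB x)) * n :=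
          mul_le_mul_of_nonneg_right (by linarith) hn0
        have a12 : ((⌊Q.θ (iB l x) (jB x) * n⌋₊ : ℕ) : ℝ) + m < (pB n Q x : ℕ) := by
          rw [b3]
          linarith
        have a13 : ((⌊Q.θ (iB l x) (jB x) * n⌋₊ : ℕ) : ℤ) + m < (pB n Q x : ℕ) := by
          exact_mod_cast a12
        omega
      · exact a6
      · exfalso
        have a7 : pB n Q x ≤ ⌊Q.θ y.1 y.2 * n⌋₊ := by
          rw [b3, a1]
          exact Nat.floor_le_floor (mul_le_mul_of_nonneg_right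
            (theta_mono hQ (iB l x) (by omega) (by omega)) hn0)
        omega
    refine ⟨a1, a5, ?_, a3⟩
    rw [a1, a5] at h2
    omega

end Vale.Agent.P167.Enl
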