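import Vale.Agent.P167.H592.T.OneR
import Vale.Agent.P167.H592.T.HoleF

/-!
# P167, general `q`: boxes which see the squares of at most one row of the frame

A box which sees two rows of the frame of a polygon contains a square next to a mark.
-/

namespace Vale.Agent.P167.Enl

open Finset
open Vale.Agent.P167.E6 (IsPolygon Encloses dir face)
open Vale.Agent.P167.H825 (enl pdir epos Marks FlowIn ptau bsite)
open Vale.Agent.P167.H662 (hsite)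
open Vale.Agent.P167.H199 (Gap)
open Vale.Agent.P167.H166 (bxx mem_bxx)
open Vale.Agent.P167.H825.Q (Row Bc frow)
open Vale.Agent.P167.H562.QM (OneP OneC)
open Vale.Agent.P167.H680.T (uI mem_uI)

variable {l : ℕ} {p : ZMod l → ℤ × ℤ} {n : ℕ} {S₀ : Finset (ℤ × ℤ)} {Q : Marks} {bc : Bc} {d : ℕ}
  {θ β : ℝ}

/-- The rectangle of two squares contains a square next to the corner between them. -/
theorem near_corner {V : ℤ × ℤ} {r r' : Fin 4} {s t : ℤ} (hs : 0 ≤ s) (ht : 1 ≤ t)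
    (hr : r ≠ r' + 2) : ∃ w : ℤ × ℤ, nm (w - V) ≤ 1 ∧
      min (oz V r s).1 (oz V r' (-t)).1 ≤ w.1 ∧ w.1 ≤ max (oz V r s).1 (oz V r' (-t)).1 ∧
      min (oz V r s).2 (oz V r' (-t)).2 ≤ w.2 ∧ w.2 ≤ max (oz V r s).2 (oz V r' (-t)).2 := by
  obtain ⟨x, y⟩ := V
  obtain ⟨a0, a1, a2, a3⟩ := oz_eq (x, y) s
  obtain ⟨b0, b1, b2, b3⟩ := oz_eq (x, y) (-t)
  have key : ∀ u v : ℤ × ℤ, (min u.1 v.1 ≤ x ∧ x - 1 ≤ max u.1 v.1) →
      (min u.2 v.2 ≤ y ∧ y - 1 ≤ max u.2 v.2) → ∃ w : ℤ × ℤ, nm (w - (x, y)) ≤ 1 ∧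
      min u.1 v.1 ≤ w.1 ∧ w.1 ≤ max u.1 v.1 ∧ min u.2 v.2 ≤ w.2 ∧ w.2 ≤ max u.2 v.2 := by
    rintro ⟨u1, u2⟩ ⟨v1, v2⟩ ⟨h1, h2⟩ ⟨h3, h4⟩
    simp only at h1 h2 h3 h4 ⊢
    refine ⟨(if x ≤ max u1 v1 then x else x - 1, if y ≤ max u2 v2 then y else y - 1), ?_, ?_⟩
    · unfold nm
      rw [max_le_iff, abs_le, abs_le]
      simp only [Prod.fst_sub, Prod.snd_sub]
      split_ifs <;> omega
    · simp only
      split_ifs <;> omega
  rcases fin4_cases r with rfl | rfl | rfl | rfl <;>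
    rcases fin4_cases r' with rfl | rfl | rfl | rfl <;>
    first
    | exact absurd rfl hr
    | (refine key _ _ ?_ ?_ <;> simp only [a0, a1, a2, a3, b0, b1, b2, b3] <;> omega)

variable (hp : IsPolygon p) (hD : Encloses p S₀) (hQ : Q.Ok) {g δ : ℝ} (hg : Gap Q l g)
  (hδ : 0 < δ) (hδg : 4 * δ ≤ g) (hn : 16 ≤ δ * n)

include hp hQ hn in
/-- Two close squares of different rows are near a mark. -/
theorem near_mark {x y : Fin l × Fin (Q.m + 1)} (hxy : x ≠ y) {σ τ : ℕ}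
    (h1 : sW p n Q ⌊δ * n⌋₊ x.1 x.2 ≤ σ) (h2 : σ < eW p n Q ⌊δ * n⌋₊ x.1 x.2)
    (h3 : sW p n Q ⌊δ * n⌋₊ y.1 y.2 ≤ τ) (h4 : τ < eW p n Q ⌊δ * n⌋₊ y.1 y.2) {m : ℤ}
    (hm : (m : ℝ) + 1 ≤ n) (h : nm (vp p n x.1 σ - vp p n y.1 τ) ≤ m) :
    ∃ z : Fin l × Fin (Q.m + 1), nm (vp p n x.1 σ - hsite p Q n z) ≤ m + 1 := by
  have hd1 : 1 ≤ ⌊δ * n⌋₊ := Nat.le_floor (by push_cast; linarith)
  have hn0 : (0 : ℝ) ≤ n := Nat.cast_nonneg n
  obtain ⟨e1, e2⟩ := eW_le h1 h2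
  obtain ⟨e3, e4⟩ := eW_le h3 h4
  have hσ := lt_n hQ hd1 (Nat.lt_succ_iff.1 x.2.isLt) h1 h2
  have hτ := lt_n hQ hd1 (Nat.lt_succ_iff.1 y.2.isLt) h3 h4
  have hmn : m + 1 ≤ n := by exact_mod_cast hm
  have hm0 : 0 ≤ m := (nm_nonneg _).trans h
  by_cases hi : (x.1 : ℕ) = y.1
  · have hst : |(σ : ℤ) - τ| ≤ m := by
      rw [← hi, vp_same] at h
      exact h
    rw [abs_le] at hst
    have hj : (x.2 : ℕ) ≠ y.2 := fun hj => hxy (Prod.ext (Fin.ext hi) (Fin.ext hj))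
    rcases lt_or_gt_of_ne hj with hj | hj
    · have h5 : ⌊Q.θ x.1 (x.2 + 1) * n⌋₊ ≤ ⌊Q.θ y.1 y.2 * n⌋₊ := by
        rw [hi]
        exact Nat.floor_le_floor (mul_le_mul_of_nonneg_right
          (theta_mono hQ y.1 (by omega) (by omega)) hn0)
      refine ⟨(x.1, ⟨x.2 + 1, by omega⟩), ?_⟩
      have e5 : hsite p Q n (x.1, (⟨x.2 + 1, by omega⟩ : Fin (Q.m + 1))) =
        vp p n x.1 (⌊Q.θ x.1 (x.2 + 1) * n⌋₊ : ℤ) := rfl
      rw [e5, vp_same, abs_le]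
      omega
    · have h5 : ⌊Q.θ y.1 (y.2 + 1) * n⌋₊ ≤ ⌊Q.θ x.1 x.2 * n⌋₊ := by
        rw [hi]
        exact Nat.floor_le_floor (mul_le_mul_of_nonneg_right
          (theta_mono hQ y.1 (by omega) (by omega)) hn0)
      refine ⟨x, ?_⟩
      have e5 : hsite p Q n x = vp p n x.1 (⌊Q.θ x.1 x.2 * n⌋₊ : ℤ) := rfl
      rw [e5, vp_same, abs_le]
      omega
  · have h5 : (σ : ℤ) ≤ m ∨ (n : ℤ) - σ ≤ m := by
      by_contra hcon
      push Not at hcon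
      have h6 := vp_far hp x.1.2 y.1.2 hi (σ := σ) (σ' := τ) (m := m + 1) (n := n) (by omega)
        (by omega) (by omega) (by omega) hmn
      omega
    rcases h5 with h5 | h5
    · refine ⟨(x.1, 0), ?_⟩
      have e5 : hsite p Q n (x.1, (0 : Fin (Q.m + 1))) = vp p n x.1 (0 : ℤ) := by
        show vp p n x.1 (⌊Q.θ x.1 0 * n⌋₊ : ℤ) = _
        rw [fl_zero hQ]
        rfl
      rw [e5, vp_same, abs_le]
      omega
    · -- the next vertex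
      have e6 : ∃ z : Fin l × Fin (Q.m + 1), hsite p Q n z = vp p n x.1 (n : ℤ) := by
        have hl : 0 < l := by have := x.1.2; omega
        by_cases h6 : (x.1 : ℕ) + 1 < l
        · refine ⟨(⟨x.1 + 1, h6⟩, 0), ?_⟩
          rw [← vp_pB hp hQ]
          have h7 : iB l ((⟨x.1 + 1, h6⟩, 0) : Fin l × Fin (Q.m + 1)) = x.1 := by
            unfold iB
            simp
          rw [h7, pB_zero hQ rfl]
        · refine ⟨(⟨0, hl⟩, 0), ?_⟩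
          rw [← vp_pB hp hQ]
          have h7 : iB l ((⟨0, hl⟩, 0) : Fin l × Fin (Q.m + 1)) = x.1 := by
            unfold iB
            simp
            omega
          rw [h7, pB_zero hQ rfl]
      obtain ⟨z, hz⟩ := e6
      refine ⟨z, ?_⟩
      rw [hz, vp_same, abs_le]
      omega

include hp hD hQ hg hδ hδg hn in
/-- **A rectangle with squares of two rows of the frame contains a square next to a mark.** -/
theorem two_rows {a : ℤ} (ha : (8 * a : ℝ) + 20 < g * n) {x y : Fin l × Fin (Q.m + 1)}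
    (hxy : x ≠ y) {σ τ : ℕ}
    (h1 : sW p n Q ⌊δ * n⌋₊ x.1 x.2 ≤ σ) (h2 : σ < eW p n Q ⌊δ * n⌋₊ x.1 x.2)
    (h3 : sW p n Q ⌊δ * n⌋₊ y.1 y.2 ≤ τ) (h4 : τ < eW p n Q ⌊δ * n⌋₊ y.1 y.2)
    (h : nm (op p n x.1 σ - op p n y.1 τ) ≤ 2 * a) :
    ∃ (z : Fin l × Fin (Q.m + 1)) (w : ℤ × ℤ), nm (w - hsite p Q n z) ≤ 1 ∧
      min (op p n x.1 σ).1 (op p n y.1 τ).1 ≤ w.1 ∧ w.1 ≤ max (op p n x.1 σ).1 (op p n y.1 τ).1 ∧
      min (op p n x.1 σ).2 (op p n y.1 τ).2 ≤ w.2 ∧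
      w.2 ≤ max (op p n x.1 σ).2 (op p n y.1 τ).2 := by
  have hd1 : 1 ≤ ⌊δ * n⌋₊ := Nat.le_floor (by push_cast; linarith)
  have hn' : 0 < n := by
    rcases Nat.eq_zero_or_pos n with h | h
    · rw [h] at hn; norm_num at hn
    · exact h
  have hg1 : g ≤ 1 := by
    have h1 := hg.1 x.1 x.1.2 x.2 (by omega)
    have h2 := theta_nonneg hQ x.1 (j := x.2) (by omega)
    have h3 := theta_le_one hQ x.1 (j := x.2 + 1) (by omega)
    linarith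
  have hn0 : (0 : ℝ) ≤ n := Nat.cast_nonneg n
  have hgn : g * n ≤ n := by nlinarith
  have ha0 : 0 ≤ a := by
    have := nm_nonneg (op p n x.1 σ - op p n y.1 τ)
    omega
  have ha0' : (0 : ℝ) ≤ a := by exact_mod_cast ha0
  have k1 : nm (vp p n x.1 σ - vp p n y.1 τ) ≤ 2 * a + 2 := by
    have a1 := op_near (p := p) (n := n) x.1 σ
    have a2 := op_near (p := p) (n := n) y.1 τ
    have a3 := nm_tri (vp p n x.1 σ) (op p n x.1 σ) (vp p n y.1 τ)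
    have a4 := nm_tri (op p n x.1 σ) (op p n y.1 τ) (vp p n y.1 τ)
    rw [nm_sub_comm (vp p n x.1 σ) (op p n x.1 σ)] at a3
    omega
  obtain ⟨z, hz⟩ := near_mark hp hQ hn hxy h1 h2 h3 h4 (m := 2 * a + 2)
    (by push_cast; linarith) k1
  have hz' : nm (vp p n y.1 τ - hsite p Q n z) ≤ 4 * a + 5 := by
    have a3 := nm_tri (vp p n y.1 τ) (vp p n x.1 σ) (hsite p Q n z)
    rw [nm_sub_comm (vp p n y.1 τ) (vp p n x.1 σ)] at a3
    omega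
  have hm : (2 * ((4 * a + 5 : ℤ) : ℝ)) + 2 < g * n := by push_cast; linarith
  have f1 := frm_box (m := 4 * a + 5) hp hQ hg hδ hδg hn hm h1 h2 (hz.trans (by omega))
  have f2 := frm_box (m := 4 * a + 5) hp hQ hg hδ hδg hn hm h3 h4 hz'
  have hturn := turn_mark (p := p) hp hD hQ hg (m := 4 * a + 5) (by omega) hm hn' z
  have m1 := uA_mod hp hD hQ hn' z (pA_lt hQ hn' z)
  have m2 := uB_mod hp hD hQ hn' z
  have hrr : pdir p z.1 ≠ pdir p (iB l z) + 2 := by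
    intro hcon
    rw [hcon] at m1
    have h7 := (pdir p (iB l z)).isLt
    have h8 : (((pdir p (iB l z)) + 2 : Fin 4) : ℕ) = ((pdir p (iB l z) : ℕ) + 2) % 4 := by
      rw [Fin.val_add]
      rfl
    rw [h8] at m1
    omega
  have hA : ∀ s : ℤ, op p n z.1 s = oz (hsite p Q n z) (pdir p z.1) (s - pA n Q z) := by
    intro s
    have e1 : vp p n z.1 s = vz (hsite p Q n z) (pdir p z.1) (s - pA n Q z) := by
      rw [← vp_pA]
      unfold vp vz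
      rw [add_assoc, ← add_smul]
      congr 2
      ring
    show face (vp p n z.1 s) (pdir p z.1 - 1) = _
    rw [e1]
    rfl
  have hB : ∀ s : ℤ, op p n (iB l z) s =
      oz (hsite p Q n z) (pdir p (iB l z)) (-((pB n Q z : ℤ) - s)) := by
    intro s
    have e1 : vp p n (iB l z) s =
        vz (hsite p Q n z) (pdir p (iB l z)) (-((pB n Q z : ℤ) - s)) := by
      rw [← vp_pB hp hQ z]
      unfold vp vz
      rw [add_assoc, ← add_smul]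
      congr 2
      ring
    show face (vp p n (iB l z) s) (pdir p (iB l z) - 1) = _
    rw [e1]
    rfl
  have hpos := (row_pos (p := p) hQ hg hδ hδg hn z)
  refine ⟨z, ?_⟩
  rcases f1 with ⟨rfl, b2, -⟩ | ⟨b1, b2, b3, -⟩
  · rcases f2 with ⟨c1, c2, -⟩ | ⟨c1, c2, c3, -⟩
    · exact absurd c1.symm hxy
    · obtain ⟨w, w0, w1, w2, w3, w4⟩ := near_corner (V := hsite p Q n x) (r := pdir p x.1)
        (r' := pdir p (iB l x)) (s := σ - pA n Q x) (t := pB n Q x - τ) (by omega) (by omega) hrr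
      rw [← hA, ← hB, ← c1] at w1 w2 w3 w4
      exact ⟨w, w0, w1, w2, w3, w4⟩
  · rcases f2 with ⟨rfl, c2, -⟩ | ⟨c1, c2, c3, -⟩
    · obtain ⟨w, w0, w1, w2, w3, w4⟩ := near_corner (V := hsite p Q n y) (r := pdir p y.1)
        (r' := pdir p (iB l y)) (s := τ - pA n Q y) (t := pB n Q y - σ) (by omega) (by omega) hrr
      rw [← hA, ← hB, ← b1] at w1 w2 w3 w4
      refine ⟨w, w0, ?_, ?_, ?_, ?_⟩
      · rw [min_comm]; exact w1
      · rw [max_comm]; exact w2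
      · rw [min_comm]; exact w3
      · rw [max_comm]; exact w4
    · exfalso
      refine hxy (Prod.ext (Fin.ext ?_) (Fin.ext ?_))
      · rw [b1, c1]
      · rw [b2, c2]

include hp hQ hg hδ hδg hn in
/-- Squares of different rows. -/
theorem frow_far {x y : Fin l × Fin (Q.m + 1)} (hxy : x ≠ y) {u v : ℤ × ℤ}
    (hu : u ∈ (frow θ β p Q n ⌊δ * n⌋₊ bc x.1 x.2).I)
    (hv : v ∈ (frow θ β p Q n ⌊δ * n⌋₊ bc y.1 y.2).I) :
    (⌊δ * n⌋₊ : ℤ) - 3 ≤ nm (u - v) := by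
  rw [frow_I] at hu hv
  obtain ⟨σ, h1, h2, rfl⟩ := mem_rowP.1 hu
  obtain ⟨τ, h3, h4, rfl⟩ := mem_rowP.1 hv
  have hrow := rows_marks (p := p) hQ hg hδ hδg hn
  have h5 := hrow.far hp hxy h1 h2 h3 h4
  have h16 : 16 ≤ ⌊δ * n⌋₊ := Nat.le_floor (by push_cast; linarith)
  have h6 : ((⌊δ * n⌋₊ - 1 : ℕ) : ℤ) = (⌊δ * n⌋₊ : ℤ) - 1 := by omega
  rw [h6] at h5
  change (⌊δ * n⌋₊ : ℤ) - 1 ≤ nm (vp p n x.1 σ - vp p n y.1 τ) at h5
  have a1 := op_near (p := p) (n := n) x.1 σ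
  have a2 := op_near (p := p) (n := n) y.1 τ
  have a3 := nm_tri (vp p n x.1 σ) (op p n x.1 σ) (vp p n y.1 τ)
  have a4 := nm_tri (op p n x.1 σ) (op p n y.1 τ) (vp p n y.1 τ)
  rw [nm_sub_comm (vp p n x.1 σ) (op p n x.1 σ)] at a3
  omega

variable {D : Finset (ℤ × ℤ)} {η : Cfg} {y : ℤ × ℤ} {a : ℤ}

include hp hQ hg hδ hδg hn in
/-- **`OneC` for the boxes smaller than the holes.** -/
theorem oneC_small (ha : 2 * a + 3 < ⌊δ * n⌋₊)
    (h1 : ∀ v ∈ bxx y a, v ∉ frmQ p Q n ⌊δ * n⌋₊ → v ∈ D)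
    (h2 : ∀ v ∈ bxx y a, v ∈ frmQ p Q n ⌊δ * n⌋₊ → v ∉ D)
    (h3 : ∀ x : Fin l × Fin (Q.m + 1), ∀ v ∈ (frow θ β p Q n ⌊δ * n⌋₊ bc x.1 x.2).I,
      v ∈ bxx y a → η v = (frow θ β p Q n ⌊δ * n⌋₊ bc x.1 x.2).fr v) : OneC y a D η := by
  have e : frmQ p Q n ⌊δ * n⌋₊ = uI fun x : Fin l × Fin (Q.m + 1) =>
    frow θ β p Q n ⌊δ * n⌋₊ bc x.1 x.2 := frmQ_eq θ β bc
  refine oneC_rows (fun x : Fin l × Fin (Q.m + 1) => frow θ β p Q n ⌊δ * n⌋₊ bc x.1 x.2)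
    (fun i j hij u hu v hv => ?_) (by rw [← e]; exact h1) (by rw [← e]; exact h2) h3
  have := frow_far hp hQ hg hδ hδg hn hij hu hv
  omega

include hp hD hQ hg hδ hδg hn in
/-- **`OneC` for the macroscopic boxes off the marks.** -/
theorem oneC_off (ha : (8 * a : ℝ) + 20 < g * n)
    (h0 : ∀ x : Fin l × Fin (Q.m + 1), ∀ w ∈ bxx y a, 1 < nm (w - hsite p Q n x))
    (h1 : ∀ v ∈ bxx y a, v ∉ frmQ p Q n ⌊δ * n⌋₊ → v ∈ D)
    (h2 : ∀ v ∈ bxx y a, v ∈ frmQ p Q n ⌊δ * n⌋₊ → v ∉ D)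
    (h3 : ∀ x : Fin l × Fin (Q.m + 1), ∀ v ∈ (frow θ β p Q n ⌊δ * n⌋₊ bc x.1 x.2).I,
      v ∈ bxx y a → η v = (frow θ β p Q n ⌊δ * n⌋₊ bc x.1 x.2).fr v) : OneC y a D η := by
  have e : ∀ {v : ℤ × ℤ}, v ∈ frmQ p Q n ⌊δ * n⌋₊ ↔ ∃ x : Fin l × Fin (Q.m + 1),
      v ∈ (frow θ β p Q n ⌊δ * n⌋₊ bc x.1 x.2).I := by
    intro v
    rw [frmQ_eq θ β bc]
    simp
  by_cases h : ∃ x : Fin l × Fin (Q.m + 1), ∃ v ∈ (frow θ β p Q n ⌊δ * n⌋₊ bc x.1 x.2).I,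
      v ∈ bxx y a
  · obtain ⟨x, v, hv, hvb⟩ := h
    refine oneC_row (frow θ β p Q n ⌊δ * n⌋₊ bc x.1 x.2) (fun w hw hwi => ?_) fun w hw hwi =>
      ⟨h2 w hw (e.2 ⟨x, hwi⟩), h3 x w hwi hw⟩
    by_contra hwD
    have hwu : w ∈ frmQ p Q n ⌊δ * n⌋₊ := by
      by_contra hcon
      exact hwD (h1 w hw hcon)
    obtain ⟨x', hx'⟩ := e.1 hwu
    have hne : x ≠ x' := by
      rintro rfl
      exact hwi hx'
    rw [frow_I] at hv hx'
    obtain ⟨σ, k1, k2, rfl⟩ := mem_rowP.1 hv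
    obtain ⟨τ, k3, k4, rfl⟩ := mem_rowP.1 hx'
    rw [mem_bxx] at hw hvb
    have k5 : nm (op p n x.1 σ - op p n x'.1 τ) ≤ 2 * a := by
      have a1 := nm_tri (op p n x.1 σ) y (op p n x'.1 τ)
      have a2 := nm_sub_comm (op p n x'.1 τ) y
      omega
    obtain ⟨z, w, w0, w1, w2, w3, w4⟩ := two_rows hp hD hQ hg hδ hδg hn ha hne k1 k2 k3 k4 k5
    refine absurd (h0 z w ?_) (by omega)
    rw [mem_bxx]
    unfold nm at hw hvb ⊢
    rw [max_le_iff, abs_le, abs_le] at hw hvb ⊢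
    simp only [Prod.fst_sub, Prod.snd_sub] at hw hvb ⊢
    omega
  · push Not at h
    exact oneC_in fun v hv => h1 v hv fun hvu => by
      obtain ⟨i, hi⟩ := e.1 hvu
      exact h i v hi hv

end Vale.Agent.P167.Enl
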