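import Vale.Agent.P167.H592.T.HoleF

/-!
# P167, general `q`, START: every hole of the frame `PT` is a hole of the form `HoleW`
-/

namespace Vale.Agent.P167.Enl

open Finset
open Vale.Agent.P167.Top
open Vale.Agent.P167.A (plane plane_sg)
open Vale.Agent.P167.E6 (IsPolygon Encloses dir face)
open Vale.Agent.P167.H825 (enl pdir epos Marks FlowIn ptau bsite)
open Vale.Agent.P167.BR (ce be)
open Vale.Agent.P167.XDL (bS mem_bS)
open Vale.Agent.P167.FK (Bq)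
open Vale.Agent.P167.H662 (hsite)
open Vale.Agent.P167.H199 (Gap ah at' hb)
open Vale.Agent.P167.H680.T (sgb)
open Vale.Agent.P167.H825.Q (Row Bc frow stΦ stτ PT PT_S PT_ph PT_off frmP RowsP frow_Φ frow_τ osq
  sq_hb sgb_hb sg_sg)
open Vale.Agent.P167.H871.Q (Lq Wn rA rB RW Lq_rel box_of rA_not rB_not rA_rB HoleW)

variable {l : ℕ} {p : ZMod l → ℤ × ℤ} {n : ℕ} {S₀ : Finset (ℤ × ℤ)} {Q : Marks} {bc : Bc}
  {d m : ℕ} {θ β : ℝ} {Zr : ℕ → Row → ℝ} {c : Ed → ℝ}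

/-! ### the phases at the rows -/

/-- Squares of different rows. -/
theorem row_uniq (h : RowsP p Q n d m) (hp : IsPolygon p) (hm : 4 ≤ m)
    {x y : Fin l × Fin (Q.m + 1)} {σ τ : ℕ} (h1 : sW p n Q d x.1 x.2 ≤ σ)
    (h2 : σ < eW p n Q d x.1 x.2) (h3 : sW p n Q d y.1 y.2 ≤ τ) (h4 : τ < eW p n Q d y.1 y.2)
    (h5 : op p n x.1 σ = op p n y.1 τ) : x = y := by
  by_contra hne
  have h6 := h.far hp hne h1 h2 h3 h4
  have a1 := op_near (p := p) (n := n) x.1 σ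
  have a2 := op_near (p := p) (n := n) y.1 τ
  rw [← h5] at a2
  have a3 := nm_tri (vp p n x.1 σ) (op p n x.1 σ) (vp p n y.1 τ)
  rw [nm_sub_comm (vp p n x.1 σ) (op p n x.1 σ)] at a3
  change (m : ℤ) ≤ nm (vp p n x.1 σ - vp p n y.1 τ) at h6
  omega

/-- The phases of the frame at an edge of a row. -/
theorem PT_gen (h : RowsP p Q n d m) (hp : IsPolygon p) (hD : Encloses p S₀) (hQ : Q.Ok)
    (hb' : bc.Ok l Q) (hd : 1 ≤ d) (hm : 4 ≤ m) (x : Fin l × Fin (Q.m + 1)) {σ : ℕ}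
    (h1 : sW p n Q d x.1 x.2 ≤ σ) (h2 : σ < eW p n Q d x.1 x.2) {g : Ed} {w : ℤ × ℤ}
    (htwo : Two g (op p n x.1 σ) w) (hw : w ∉ frmP p Q n d) {b : Bool}
    (hb1 : H680.T.sq g b = w) (hb2 : H680.T.sq g (!b) = op p n x.1 σ) :
    (PT θ β p Q n d bc Zr 0).ph g b =
      sgb b * stΦ θ β (uN p n (tB n Q)) (bc.ka l n (tB n Q)) (kOf l n (tB n Q) x.1 σ) +
        (sg g : ℝ) * stτ (bc.ka l n (tB n Q)) (kOf l n (tB n Q) x.1 σ) *
          ((3 * θ - Real.pi) / 4) := by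
  have hwx : ∀ y : Fin l × Fin (Q.m + 1),
      w ∉ rowP p n y.1 (sW p n Q d y.1 y.2) (eW p n Q d y.1 y.2) := fun y h' =>
    hw (mem_biUnion.2 ⟨y, mem_univ _, h'⟩)
  have e5 : g ∈ bS (frow θ β p Q n d bc x.1 x.2).I := by
    rw [H825.Q.frow_I]
    exact mem_bS_two.2 ⟨_, _, htwo, mem_rowP.2 ⟨σ, h1, h2, rfl⟩, hwx x⟩
  have e4 : H680.T.sq g b ∉ (frow θ β p Q n d bc x.1 x.2).I := by
    rw [H825.Q.frow_I, hb1]
    exact hwx x
  show ∑ y, ((PT θ β p Q n d bc Zr 0).w y).a g b + (0 : ℝ) / 2 = _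
  rw [zero_div, add_zero, sum_eq_single_of_mem x (mem_univ _)]
  · show (if g ∈ bS (frow θ β p Q n d bc x.1 x.2).I then
      (if H680.T.sq g b ∈ (frow θ β p Q n d bc x.1 x.2).I then 0 else
        sgb b * (frow θ β p Q n d bc x.1 x.2).Φ (H680.T.sq g (!b)) +
          (sg g : ℝ) * (frow θ β p Q n d bc x.1 x.2).τ (H680.T.sq g (!b)) * ((3 * θ - Real.pi) / 4))
        else 0) = _
    rw [if_pos e5, if_neg e4, hb2]
    have e6 := frow_Φ (θ := θ) (β := β) hp hD hQ hb' hd x.1.isLt (Nat.lt_succ_iff.1 x.2.isLt) h1 h2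
    have e7 := frow_τ (θ := θ) (β := β) hp hD hQ hb' hd x.1.isLt (Nat.lt_succ_iff.1 x.2.isLt) h1 h2
    have e8 : osq ((n : ℤ) • p ((x.1 : ℕ) : ZMod l)) (pdir p x.1) σ = Enl.op p n x.1 σ := rfl
    rw [← e8, e6, e7]
  · intro y _ hy
    have h3 : g ∉ ((PT θ β p Q n d bc Zr 0).w y).S := by
      show g ∉ bS (frow θ β p Q n d bc y.1 y.2).I
      rw [H825.Q.frow_I]
      intro h'
      obtain ⟨v', w', k1, k2, k3⟩ := mem_bS_two.1 h'
      have k4 : v' = op p n x.1 σ ∨ v' = w := by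
        rcases k1 with ⟨a1, a2⟩ | ⟨a1, a2⟩ <;> rcases htwo with ⟨a3, a4⟩ | ⟨a3, a4⟩
        · exact Or.inl (a1.symm.trans a3)
        · exact Or.inr (a1.symm.trans a3)
        · exact Or.inr (a2.symm.trans a4)
        · exact Or.inl (a2.symm.trans a4)
      rcases k4 with k4 | k4
      · obtain ⟨τ, k5, k6, k7⟩ := mem_rowP.1 k2
        exact hy (row_uniq h hp hm h1 h2 k5 k6 (k4.symm.trans k7)).symm
      · rw [k4] at k2
        exact hwx y k2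
    rw [((PT θ β p Q n d bc Zr 0).w y).off g h3]
    rfl

/-- The phase of a leaving edge. -/
theorem PT_ah (h : RowsP p Q n d m) (hp : IsPolygon p) (hD : Encloses p S₀) (hQ : Q.Ok)
    (hb' : bc.Ok l Q) (hd : 1 ≤ d) (hm : 4 ≤ m) (x : Fin l × Fin (Q.m + 1)) {σ : ℕ}
    (h1 : sW p n Q d x.1 x.2 ≤ σ) (h2 : σ < eW p n Q d x.1 x.2) {g : Ed}
    (hg : tlv g = op p n x.1 σ) (hw : hdv g ∉ frmP p Q n d) (hc : c g = 0) :
    ah plane (PT θ β p Q n d bc Zr c).ph g =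
      stΦ θ β (uN p n (tB n Q)) (bc.ka l n (tB n Q)) (kOf l n (tB n Q) x.1 σ) +
        stτ (bc.ka l n (tB n Q)) (kOf l n (tB n Q) x.1 σ) * ((3 * θ - Real.pi) / 4) := by
  have h4 := PT_gen (θ := θ) (β := β) (Zr := Zr) h hp hD hQ hb' hd hm x h1 h2 (g := g)
    (Or.inr ⟨rfl, hg⟩) hw (b := hb plane g) (sq_hb g).1 ((sq_hb g).2.trans hg)
  unfold ah
  rw [PT_ph]
  unfold QX.aF
  rw [h4, hc]
  have e1 := (sgb_hb g).1
  have e2 := sg_sg g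
  linear_combination (stΦ θ β (uN p n (tB n Q)) (bc.ka l n (tB n Q))
    (kOf l n (tB n Q) x.1 σ)) * e1 +
    (stτ (bc.ka l n (tB n Q)) (kOf l n (tB n Q) x.1 σ) * ((3 * θ - Real.pi) / 4)) * e2

/-- The phase of an entering edge. -/
theorem PT_at (h : RowsP p Q n d m) (hp : IsPolygon p) (hD : Encloses p S₀) (hQ : Q.Ok)
    (hb' : bc.Ok l Q) (hd : 1 ≤ d) (hm : 4 ≤ m) (x : Fin l × Fin (Q.m + 1)) {σ : ℕ}
    (h1 : sW p n Q d x.1 x.2 ≤ σ) (h2 : σ < eW p n Q d x.1 x.2) {g : Ed}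
    (hg : hdv g = op p n x.1 σ) (hw : tlv g ∉ frmP p Q n d) (hc : c g = 0) :
    at' plane (PT θ β p Q n d bc Zr c).ph g =
      -(stΦ θ β (uN p n (tB n Q)) (bc.ka l n (tB n Q)) (kOf l n (tB n Q) x.1 σ)) +
        stτ (bc.ka l n (tB n Q)) (kOf l n (tB n Q) x.1 σ) * ((3 * θ - Real.pi) / 4) := by
  have h4 := PT_gen (θ := θ) (β := β) (Zr := Zr) h hp hD hQ hb' hd hm x h1 h2 (g := g)
    (Or.inl ⟨hg, rfl⟩) hw (b := !hb plane g) (sq_hb g).2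
    (by rw [Bool.not_not]; exact (sq_hb g).1.trans hg)
  unfold at'
  rw [PT_ph]
  unfold QX.aF
  rw [h4, hc]
  have e1 := (sgb_hb g).2
  have e2 := sg_sg g
  linear_combination (stΦ θ β (uN p n (tB n Q)) (bc.ka l n (tB n Q))
    (kOf l n (tB n Q) x.1 σ)) * e1 +
    (stτ (bc.ka l n (tB n Q)) (kOf l n (tB n Q) x.1 σ) * ((3 * θ - Real.pi) / 4)) * e2

/-! ### the windows -/

/-- The colour of a hole. -/
noncomputable def hτ (l n : ℕ) (Q : Marks) (bc : Bc) (x : Fin l × Fin (Q.m + 1)) : ℝ :=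
  stτ (bc.ka l n (tB n Q)) (kOf l n (tB n Q) x.1 (pA n Q x))

/-- The raw phase before a hole. -/
noncomputable def hc (θ β : ℝ) (p : ZMod l → ℤ × ℤ) (n : ℕ) (Q : Marks) (bc : Bc)
    (x : Fin l × Fin (Q.m + 1)) : ℝ :=
  θ / 4 * uB p n Q x +
    if kOf l n (tB n Q) x.1 (pA n Q x) < bc.ka l n (tB n Q) then 0 else β

theorem hτ_or (l n : ℕ) (Q : Marks) (bc : Bc) (x : Fin l × Fin (Q.m + 1)) :
    hτ l n Q bc x = 1 ∨ hτ l n Q bc x = -1 := H825.Q.stτ_or _ _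

section hole

variable (hp : IsPolygon p) (hD : Encloses p S₀) (hQ : Q.Ok) {g δ : ℝ} (hg : Gap Q l g)
  (hδ : 0 < δ) (hδg : 4 * δ ≤ g) (hn : 16 ≤ δ * n) {R : ℕ} (hR1 : ⌊δ * n⌋₊ + 3 ≤ R)
  (hR2 : (2 * R : ℝ) + 8 < g * n)

include hQ hg hδ hδg hn hR2 in
/-- The rows reach the side of the box. -/
theorem rows_long (x : Fin l × Fin (Q.m + 1)) :
    (sW p n Q ⌊δ * n⌋₊ (iB l x) (jB x) + R + 2 ≤ pB n Q x) ∧
      pA n Q x + R + 2 ≤ eW p n Q ⌊δ * n⌋₊ x.1 x.2 := by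
  have hn0 : (0 : ℝ) ≤ n := Nat.cast_nonneg n
  have h1 := (ends_bd (p := p) hQ hg hδ hδg hn (iB_lt x) (jB_le x)).1.2
  have h2 := (ends_bd (p := p) hQ hg hδ hδg hn x.1.2 (j := x.2) (by omega)).2.1.1
  have h3 := hg.1 (iB l x) (iB_lt x) (jB x) (jB_le x)
  have h4 := hg.1 x.1 x.1.2 x.2 (by omega)
  have h5 := (fl hQ n (iB l x) (show jB x + 1 ≤ Q.m + 1 by have := jB_le x; omega)).2.1
  have h6 := (fl hQ n x.1 (show (x.2 : ℕ) ≤ Q.m + 1 by omega)).1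
  have h7 : 4 * δ * n ≤ g * n := mul_le_mul_of_nonneg_right hδg hn0
  have h8 : g * n ≤ (Q.θ (iB l x) (jB x + 1) - Q.θ (iB l x) (jB x)) * n :=
    mul_le_mul_of_nonneg_right (by linarith) hn0
  have h9 : g * n ≤ (Q.θ x.1 (x.2 + 1) - Q.θ x.1 x.2) * n :=
    mul_le_mul_of_nonneg_right (by linarith) hn0
  have e1 : pB n Q x = ⌊Q.θ (iB l x) (jB x + 1) * n⌋₊ := rfl
  have e2 : pA n Q x = ⌊Q.θ x.1 x.2 * n⌋₊ := rfl
  rw [← e1] at h5
  rw [← e2] at h6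
  constructor
  · have : ((sW p n Q ⌊δ * n⌋₊ (iB l x) (jB x) : ℕ) : ℝ) + R + 2 < pB n Q x + 1 := by linarith
    have h10 : sW p n Q ⌊δ * n⌋₊ (iB l x) (jB x) + R + 2 < pB n Q x + 1 := by exact_mod_cast this
    omega
  · have : ((pA n Q x : ℕ) : ℝ) + R + 2 < (eW p n Q ⌊δ * n⌋₊ x.1 x.2 : ℕ) + 1 := by linarith
    have h10 : pA n Q x + R + 2 < eW p n Q ⌊δ * n⌋₊ x.1 x.2 + 1 := by exact_mod_cast this
    omega

include hp hD hQ hg hδ hδg hn hR2 in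
/-- The squares of the frame in the box, in coordinates. -/
theorem frm_coord {x : Fin l × Fin (Q.m + 1)} {v : ℤ × ℤ} (hv : v ∈ frmP p Q n ⌊δ * n⌋₊)
    (hb : v ∈ Bq (hsite p Q n x) (R + 1)) :
    (∃ σ : ℕ, v = op p n (iB l x) σ ∧
        Lq (hsite p Q n x) (uB p n Q x) v = ((σ : ℤ) - pB n Q x, -1) ∧
        (pB n Q x : ℤ) - R - 1 ≤ σ ∧ σ + gB p n Q ⌊δ * n⌋₊ x < pB n Q x) ∨
      (∃ σ : ℕ, v = op p n x.1 σ ∧
        Lq (hsite p Q n x) (uA p n Q x) v = ((σ : ℤ) - pA n Q x, -1) ∧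
        pA n Q x + gA p n Q ⌊δ * n⌋₊ x ≤ σ ∧ (σ : ℤ) ≤ pA n Q x + R) := by
  have hd1 : 1 ≤ ⌊δ * n⌋₊ := Nat.le_floor (by push_cast; linarith)
  have hn' : 0 < n := by
    rcases Nat.eq_zero_or_pos n with h | h
    · rw [h] at hn; norm_num at hn
    · exact h
  obtain ⟨y, σ, h1, h2, rfl⟩ := mem_frm.1 hv
  have h3 : nm (vp p n y.1 σ - hsite p Q n x) ≤ (R : ℤ) + 2 := by
    have a1 := mem_Bq' hb
    have a2 := op_near (p := p) (n := n) y.1 σ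
    have a3 := nm_tri (vp p n y.1 σ) (op p n y.1 σ) (hsite p Q n x)
    rw [nm_sub_comm (vp p n y.1 σ) (op p n y.1 σ)] at a3
    omega
  have hm : (2 * ((R + 2 : ℕ) : ℤ) : ℝ) + 2 < g * n := by push_cast; linarith
  have h4 := frm_box (m := ((R + 2 : ℕ) : ℤ)) hp hQ hg hδ hδg hn hm h1 h2
    (by push_cast; exact h3)
  have h5 := (Lq_box (u := uB p n Q x)).1 hb
  have h6 := (Lq_box (u := uA p n Q x)).1 hb
  rcases h4 with ⟨rfl, h7, -⟩ | ⟨h7, h8, h9, -⟩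
  · right
    rw [Lq_after hp hD hQ hn'] at h6 ⊢
    exact ⟨σ, rfl, rfl, h7, by omega⟩
  · left
    rw [h7] at h5 ⊢
    rw [Lq_before hp hD hQ hn'] at h5
    exact ⟨σ, rfl, Lq_before hp hD hQ hn' _ _, by omega, h9⟩

include hp hD hQ hg hδ hδg hn hR1 hR2 in
/-- **Every hole of the frame is a window of two rows.** -/
theorem PT_holeW (hb' : bc.Ok l Q) (hbg : BGap l Q g bc) {κ₀ B₀ : ℝ}
    (hfl : FlowIn (enl S₀ n) κ₀ B₀ n c) (hR3 : (R : ℝ) + 2 ≤ κ₀ * n)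
    (x : Fin l × Fin (Q.m + 1)) :
    HoleW θ (hc θ β p n Q bc x) (hτ l n Q bc x) (hsite p Q n x) (uB p n Q x)
        (uA p n Q x - uB p n Q x) (R - gB p n Q ⌊δ * n⌋₊ x) (R - gA p n Q ⌊δ * n⌋₊ x) R
        (PT θ β p Q n ⌊δ * n⌋₊ bc Zr c).S (PT θ β p Q n ⌊δ * n⌋₊ bc Zr c).ph ∧
      ∀ v ∈ Bq (hsite p Q n x) R, v ∉ frmP p Q n ⌊δ * n⌋₊ →
        v ∈ Wn (hsite p Q n x) (uB p n Q x) (uA p n Q x - uB p n Q x)
          (R - gB p n Q ⌊δ * n⌋₊ x) (R - gA p n Q ⌊δ * n⌋₊ x) R := by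
  have hd1 : 16 ≤ ⌊δ * n⌋₊ := Nat.le_floor (by push_cast; linarith)
  have hn' : 0 < n := by
    rcases Nat.eq_zero_or_pos n with h | h
    · rw [h] at hn; norm_num at hn
    · exact h
  have hrow : RowsP p Q n ⌊δ * n⌋₊ (⌊δ * n⌋₊ - 1) := rows_marks (p := p) hQ hg hδ hδg hn
  have hm4 : 4 ≤ ⌊δ * n⌋₊ - 1 := by omega
  obtain ⟨⟨p1, p2, p3⟩, ⟨p4, p5, p6⟩⟩ := row_pos (p := p) hQ hg hδ hδg hn x
  obtain ⟨q1, q2⟩ := rows_long (p := p) hQ hg hδ hδg hn hR2 x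
  have hmm : (2 * ((R + 2 : ℕ) : ℤ) : ℝ) + 2 < g * n := by push_cast; linarith
  have hκ := turn_mark (p := p) hp hD hQ hg (m := ((R + 2 : ℕ) : ℤ)) (by positivity) hmm hn' x
  have hcoord := fun {v : ℤ × ℤ} => frm_coord hp hD hQ hg hδ hδg hn hR2 (x := x) (v := v)
  have hSf : (PT θ β p Q n ⌊δ * n⌋₊ bc Zr c).S = bS (frmP p Q n ⌊δ * n⌋₊) :=
    PT_S hrow hp hm4
  have hPB := pB_le (n := n) hQ x
  set z := hsite p Q n x with hz
  set u := uB p n Q x with hu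
  have hcancel : uA p n Q x - u + u = uA p n Q x := by ring
  -- the rows of the window
  have rAi : ∀ v, v ∈ rA z u (R - gB p n Q ⌊δ * n⌋₊ x) R ↔
      ∃ σ : ℕ, v = op p n (iB l x) σ ∧ (pB n Q x : ℤ) - R ≤ σ ∧
        σ + gB p n Q ⌊δ * n⌋₊ x < pB n Q x := by
    intro v
    unfold rA
    rw [Set.mem_ofPred_eq]
    constructor
    · rintro ⟨h1, h2, h3⟩
      refine ⟨((Lq z u v).1 + pB n Q x).toNat, ?_, by omega, by omega⟩
      apply Lq_inj (z := z) (u := u)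
      rw [Lq_before hp hD hQ hn']
      ext
      · show _ = (((Lq z u v).1 + pB n Q x).toNat : ℤ) - pB n Q x
        omega
      · exact h1
    · rintro ⟨σ, rfl, h2, h3⟩
      rw [Lq_before hp hD hQ hn']
      refine ⟨rfl, ?_, ?_⟩
      · show -(R : ℤ) ≤ (σ : ℤ) - pB n Q x
        omega
      · show (σ : ℤ) - pB n Q x < -R + ((R - gB p n Q ⌊δ * n⌋₊ x : ℕ) : ℤ)
        omega
  have rBi : ∀ v, v ∈ rB z u (uA p n Q x - u) (R - gA p n Q ⌊δ * n⌋₊ x) R ↔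
      ∃ σ : ℕ, v = op p n x.1 σ ∧ pA n Q x + gA p n Q ⌊δ * n⌋₊ x ≤ σ ∧
        σ < pA n Q x + R := by
    intro v
    unfold rB
    rw [Set.mem_ofPred_eq, hcancel]
    constructor
    · rintro ⟨h1, h2, h3⟩
      refine ⟨((Lq z (uA p n Q x) v).1 + pA n Q x).toNat, ?_, by omega, by omega⟩
      apply Lq_inj (z := z) (u := uA p n Q x)
      rw [Lq_after hp hD hQ hn']
      ext
      · show _ = (((Lq z (uA p n Q x) v).1 + pA n Q x).toNat : ℤ) - pA n Q x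
        omega
      · exact h1
    · rintro ⟨σ, rfl, h2, h3⟩
      rw [Lq_after hp hD hQ hn']
      refine ⟨rfl, ?_, ?_⟩
      · show (R : ℤ) - ((R - gA p n Q ⌊δ * n⌋₊ x : ℕ) : ℤ) ≤ (σ : ℤ) - pA n Q x
        omega
      · show (σ : ℤ) - pA n Q x < R
        omega
  -- the squares of the window are not in the frame
  have hWn : ∀ v, v ∈ Wn z u (uA p n Q x - u) (R - gB p n Q ⌊δ * n⌋₊ x)
      (R - gA p n Q ⌊δ * n⌋₊ x) R → v ∈ Bq z R ∧ v ∉ frmP p Q n ⌊δ * n⌋₊ := by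
    intro v hv
    obtain ⟨b1, -, -, -⟩ := box_of hκ hv
    have hvB : v ∈ Bq z R := (Lq_box (u := u)).2 b1
    refine ⟨hvB, fun hf => ?_⟩
    have hvB' : v ∈ Bq z (R + 1) := by
      rw [Lq_box (u := u)] at hvB ⊢
      omega
    rcases hcoord hf hvB' with ⟨σ, h1, h2, h3, h4⟩ | ⟨σ, h1, h2, h3, h4⟩
    · refine rA_not hκ ((rAi v).2 ⟨σ, h1, ?_, h4⟩) hv
      rw [h2] at b1
      have := b1.1
      simp only at this
      omega
    · have b2 := (Lq_box (u := uA p n Q x)).1 hvB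
      refine rB_not hκ ((rBi v).2 ⟨σ, h1, h3, ?_⟩) hv
      rw [h2] at b2
      have := b2.2.1
      simp only at this
      omega
  -- a square of the frame next to the window
  have hnext : ∀ {e : Ed} {v w : ℤ × ℤ}, Two e v w →
      v ∈ Wn z u (uA p n Q x - u) (R - gB p n Q ⌊δ * n⌋₊ x) (R - gA p n Q ⌊δ * n⌋₊ x) R →
      w ∈ frmP p Q n ⌊δ * n⌋₊ → w ∈ rA z u (R - gB p n Q ⌊δ * n⌋₊ x) R ∨
        w ∈ rB z u (uA p n Q x - u) (R - gA p n Q ⌊δ * n⌋₊ x) R := by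
    intro e v w h2 hv hw
    obtain ⟨b1, b2, b3, b4⟩ := box_of hκ hv
    rw [hcancel] at b3 b4
    have n1 := Lq_nb (z := z) (u := u) h2
    have n2 := Lq_nb (z := z) (u := uA p n Q x) h2
    have hwB' : w ∈ Bq z (R + 1) := by
      rw [Lq_box (u := u)]
      omega
    rcases hcoord hw hwB' with ⟨σ, h1, h3, h4, h5⟩ | ⟨σ, h1, h3, h4, h5⟩
    · left
      refine (rAi w).2 ⟨σ, h1, ?_, h5⟩
      by_contra hcon
      rw [h3] at n1
      simp only at n1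
      refine b2 ⟨?_, ?_⟩ <;> omega
    · right
      refine (rBi w).2 ⟨σ, h1, h4, ?_⟩
      by_contra hcon
      rw [h3] at n2
      simp only at n2
      refine b4 ⟨?_, ?_⟩ <;> omega
  have hflow : ∀ e : Ed, (hdv e ∈ Bq z R ∨ tlv e ∈ Bq z R) → c e = 0 := fun e he =>
    box_flow hp hD hQ hn' hfl (R := (R : ℤ)) (by exact_mod_cast hR3) he
  -- the rows, the phases and the colours
  have hcol : ∀ {i σ : ℕ}, i < l → σ < n → nm (vp p n i σ - z) ≤ (R : ℤ) + 2 →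
      (kOf l n (tB n Q) i σ < bc.ka l n (tB n Q) ↔
        kOf l n (tB n Q) x.1 (pA n Q x) < bc.ka l n (tB n Q)) := fun hi hσ h =>
    window_col (m := ((R + 2 : ℕ) : ℤ)) hp hQ hg hbg hmm hi hσ (by push_cast; exact h)
  have hvpB : ∀ σ : ℕ, nm (vp p n (iB l x) σ - z) = |(σ : ℤ) - pB n Q x| := fun σ => by
    rw [hz, ← vp_pB hp hQ x, vp_same]
  have hvpA : ∀ σ : ℕ, nm (vp p n x.1 σ - z) = |(σ : ℤ) - pA n Q x| := fun σ => by
    rw [hz, ← vp_pA, vp_same]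
  have hB1 : ∀ {σ : ℕ}, (pB n Q x : ℤ) - R ≤ σ → σ + gB p n Q ⌊δ * n⌋₊ x < pB n Q x →
      stΦ θ β (uN p n (tB n Q)) (bc.ka l n (tB n Q)) (kOf l n (tB n Q) (iB l x) σ) =
        hc θ β p n Q bc x ∧
      stτ (bc.ka l n (tB n Q)) (kOf l n (tB n Q) (iB l x) σ) = hτ l n Q bc x := by
    intro σ h1 h2
    have k1 := hcol (iB_lt x) (σ := σ) (by omega) (by rw [hvpB, abs_le]; omega)
    have k2 := uN_before (p := p) hQ hg (m := ((R + 2 : ℕ) : ℤ)) (by positivity) hmm hn' x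
      (σ := σ) (by omega) (by push_cast; omega)
    unfold stΦ stτ hc hτ stτ
    rw [k2]
    simp only [k1, and_self]
  have hA1 : ∀ {σ : ℕ}, pA n Q x + gA p n Q ⌊δ * n⌋₊ x ≤ σ → σ < pA n Q x + R →
      stΦ θ β (uN p n (tB n Q)) (bc.ka l n (tB n Q)) (kOf l n (tB n Q) x.1 σ) =
        hc θ β p n Q bc x + ((uA p n Q x - u : ℤ) : ℝ) * (θ / 4) ∧
      stτ (bc.ka l n (tB n Q)) (kOf l n (tB n Q) x.1 σ) = hτ l n Q bc x := by
    intro σ h1 h2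
    have hσn : σ < n := by
      have h3 := (rows_marks (p := p) hQ hg hδ hδg hn).hi x
      omega
    have k1 := hcol x.1.2 (σ := σ) hσn (by rw [hvpA, abs_le]; omega)
    have k2 := uN_after (p := p) hQ hg (m := ((R + 2 : ℕ) : ℤ)) (by positivity) hmm hn' x
      (σ := σ) hσn (by omega) (by push_cast; omega)
    unfold stΦ stτ hc hτ stτ
    rw [k2]
    simp only [k1]
    refine ⟨?_, trivial⟩
    push_cast
    ring
  -- the row before as a row of the frame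
  let y : Fin l × Fin (Q.m + 1) := (⟨iB l x, iB_lt x⟩, ⟨jB x, by have := jB_le x; omega⟩)
  have hS1 : ∀ e ∈ (PT θ β p Q n ⌊δ * n⌋₊ bc Zr c).S,
      (hdv e ∉ frmP p Q n ⌊δ * n⌋₊ → tlv e ∈ frmP p Q n ⌊δ * n⌋₊) ∧
      (tlv e ∉ frmP p Q n ⌊δ * n⌋₊ → hdv e ∈ frmP p Q n ⌊δ * n⌋₊) := by
    intro e he
    rw [hSf, mem_bS] at he
    tauto
  refine ⟨⟨hκ, by omega, by omega, by omega, by omega, ?_, ?_, ?_, ?_⟩, ?_⟩
  · intro e he
    exact ⟨fun h => hnext (Or.inl ⟨rfl, rfl⟩) h ((hS1 e he).1 (hWn _ h).2),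
      fun h => hnext (Or.inr ⟨rfl, rfl⟩) h ((hS1 e he).2 (hWn _ h).2)⟩
  · intro e he h
    rw [hSf] at he
    rw [PT_ph]
    unfold QX.aF
    rw [PT_off hrow hp hm4 he, PT_off hrow hp hm4 he, hflow e (Or.inl (hWn _ h).1)]
    ring
  · intro e he
    constructor
    · intro h h'
      obtain ⟨σ, k1, k2, k3⟩ := (rAi _).1 h'
      rw [PT_ah (x := y) hrow hp hD hQ hb' (by omega) hm4 (σ := σ)
        (by change sW p n Q ⌊δ * n⌋₊ (iB l x) (jB x) ≤ σ; omega)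
        (by change σ < eW p n Q ⌊δ * n⌋₊ (iB l x) (jB x); omega) k1 (hWn _ h).2
        (hflow e (Or.inl (hWn _ h).1))]
      obtain ⟨k4, k5⟩ := hB1 k2 k3
      change stΦ θ β _ _ (kOf l n (tB n Q) (iB l x) σ) + stτ _ (kOf l n (tB n Q) (iB l x) σ) * _ = _
      rw [k4, k5]
    · intro h h'
      obtain ⟨σ, k1, k2, k3⟩ := (rAi _).1 h'
      rw [PT_at (x := y) hrow hp hD hQ hb' (by omega) hm4 (σ := σ)
        (by change sW p n Q ⌊δ * n⌋₊ (iB l x) (jB x) ≤ σ; omega)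
        (by change σ < eW p n Q ⌊δ * n⌋₊ (iB l x) (jB x); omega) k1 (hWn _ h).2
        (hflow e (Or.inr (hWn _ h).1))]
      obtain ⟨k4, k5⟩ := hB1 k2 k3
      change -stΦ θ β _ _ (kOf l n (tB n Q) (iB l x) σ) + stτ _ (kOf l n (tB n Q) (iB l x) σ) * _ = _
      rw [k4, k5]
  · intro e he
    constructor
    · intro h h'
      obtain ⟨σ, k1, k2, k3⟩ := (rBi _).1 h'
      rw [PT_ah (x := x) hrow hp hD hQ hb' (by omega) hm4 (σ := σ) (by omega) (by omega) k1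
        (hWn _ h).2 (hflow e (Or.inl (hWn _ h).1))]
      obtain ⟨k4, k5⟩ := hA1 k2 k3
      rw [k4, k5]
    · intro h h'
      obtain ⟨σ, k1, k2, k3⟩ := (rBi _).1 h'
      rw [PT_at (x := x) hrow hp hD hQ hb' (by omega) hm4 (σ := σ) (by omega) (by omega) k1
        (hWn _ h).2 (hflow e (Or.inr (hWn _ h).1))]
      obtain ⟨k4, k5⟩ := hA1 k2 k3
      rw [k4, k5]
  · intro v hv hv'
    refine in_Wn hκ hv (fun h => hv' ?_) (fun h => hv' ?_)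
    · obtain ⟨σ, k1, k2, k3⟩ := (rAi _).1 h
      exact mem_frm.2 ⟨y, σ, by change sW p n Q ⌊δ * n⌋₊ (iB l x) (jB x) ≤ σ; omega,
        by change σ < eW p n Q ⌊δ * n⌋₊ (iB l x) (jB x); omega, k1⟩
    · obtain ⟨σ, k1, k2, k3⟩ := (rBi _).1 h
      exact mem_frm.2 ⟨x, σ, by omega, by omega, k1⟩

end hole

end Vale.Agent.P167.Enl
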