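import Vale.Agent.P167.H592.T.Row2
import Vale.Agent.P167.H825.Q.Frm
import Vale.Agent.P167.H199.PwReg

/-!
# P167, general `q`: the frame of rows of the marks of a polygon: admissibility
-/

namespace Vale.Agent.P167.Enl

open Finset Filter Topology
open Vale.Agent.P167.E6 (IsPolygon Encloses dir face)
open Vale.Agent.P167.H825 (enl pdir epos Marks rnd bsite Box FlowIn)
open Vale.Agent.P167.BR (ce be)
open Vale.Agent.P167.XDL (bS mem_bS)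
open Vale.Agent.P167.H199 (Gap sp MgR mth reg c0 Gen mgR_reg marks_mem marks_mono)
open Vale.Agent.P167.H680 (Mg)
open Vale.Agent.P167.H680.T (WallG WCG)

variable {l : ℕ} {p : ZMod l → ℤ × ℤ} {n : ℕ} {S₀ : Finset (ℤ × ℤ)} {Q : Marks} {b : Box}

/-! ### steps -/

/-- Real bounds for the ends of the rows. -/
theorem ends_bd (hQ : Q.Ok) {g δ : ℝ} (hg : Gap Q l g) (hδ : 0 < δ) (hδg : 4 * δ ≤ g)
    (hn : 16 ≤ δ * n) {i : ℕ} (hi : i < l) {j : ℕ} (hj : j ≤ Q.m) :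
    ((Q.θ i j + δ) * n - 2 ≤ sW p n Q ⌊δ * n⌋₊ i j ∧
      (sW p n Q ⌊δ * n⌋₊ i j : ℝ) ≤ (Q.θ i j + δ) * n + 1) ∧
    ((Q.θ i (j + 1) - δ) * n - 1 ≤ eW p n Q ⌊δ * n⌋₊ i j ∧
      (eW p n Q ⌊δ * n⌋₊ i j : ℝ) ≤ (Q.θ i (j + 1) - δ) * n + 2) ∧
    ⌊δ * n⌋₊ + ⌊Q.θ i j * n⌋₊ ≤ sW p n Q ⌊δ * n⌋₊ i j ∧
    eW p n Q ⌊δ * n⌋₊ i j + ⌊δ * n⌋₊ ≤ ⌊Q.θ i (j + 1) * n⌋₊ + 1 := by
  have hn0 : (0 : ℝ) ≤ n := Nat.cast_nonneg n
  have g1 := hg.1 i hi j hj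
  obtain ⟨a1, a2, -⟩ := fl hQ n i (j := j) (by omega)
  obtain ⟨b1, b2, -⟩ := fl hQ n i (j := j + 1) (by omega)
  have c1 := Nat.floor_le (show 0 ≤ δ * n by positivity)
  have c2 := Nat.lt_floor_add_one (δ * n)
  have h0 := theta_nonneg hQ i (j := j) (by omega)
  have hd : ⌊δ * n⌋₊ ≤ ⌊Q.θ i (j + 1) * n⌋₊ := by
    apply Nat.floor_le_floor
    apply mul_le_mul_of_nonneg_right _ hn0
    linarith
  have s1 := le_rnd ((n : ℤ) • p i) (bsite p Q n) (⌊Q.θ i j * n⌋₊ + ⌊δ * n⌋₊)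
  have s2 := le_rnd ((n : ℤ) • p i) (bsite p Q n) (⌊Q.θ i (j + 1) * n⌋₊ - ⌊δ * n⌋₊)
  change _ ≤ sW p n Q ⌊δ * n⌋₊ i j ∧ sW p n Q ⌊δ * n⌋₊ i j ≤ _ at s1
  change _ ≤ eW p n Q ⌊δ * n⌋₊ i j ∧ eW p n Q ⌊δ * n⌋₊ i j ≤ _ at s2
  generalize sW p n Q ⌊δ * n⌋₊ i j = s at s1 ⊢
  generalize eW p n Q ⌊δ * n⌋₊ i j = e at s2 ⊢
  have s1a : ((⌊Q.θ i j * n⌋₊ : ℕ) : ℝ) + (⌊δ * n⌋₊ : ℕ) ≤ s := by exact_mod_cast s1.1
  have s1b : (s : ℝ) ≤ ((⌊Q.θ i j * n⌋₊ : ℕ) : ℝ) + (⌊δ * n⌋₊ : ℕ) + 1 := by exact_mod_cast s1.2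
  have s2a : ((⌊Q.θ i (j + 1) * n⌋₊ : ℕ) : ℝ) - (⌊δ * n⌋₊ : ℕ) ≤ e := by
    rw [← Nat.cast_sub hd]; exact_mod_cast s2.1
  have s2b : (e : ℝ) ≤ ((⌊Q.θ i (j + 1) * n⌋₊ : ℕ) : ℝ) - (⌊δ * n⌋₊ : ℕ) + 1 := by
    rw [← Nat.cast_sub hd]; exact_mod_cast s2.2
  refine ⟨⟨by linarith, by linarith⟩, ⟨by linarith, by linarith⟩, by omega, by omega⟩

/-- **The rows of the marks.** -/
theorem rows_marks (hQ : Q.Ok) {g δ : ℝ} (hg : Gap Q l g) (hδ : 0 < δ) (hδg : 4 * δ ≤ g)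
    (hn : 16 ≤ δ * n) : Rows l n (⌊δ * n⌋₊ - 1) (fun x : Fin l × Fin (Q.m + 1) => (x.1 : ℕ))
      (fun x => sW p n Q ⌊δ * n⌋₊ x.1 x.2) (fun x => eW p n Q ⌊δ * n⌋₊ x.1 x.2) where
  lt x := x.1.2
  lo x := by
    have := (ends_bd (p := p) hQ hg hδ hδg hn x.1.2 (j := x.2) (by omega)).2.2.1
    omega
  hi x := by
    have h1 := (ends_bd (p := p) hQ hg hδ hδg hn x.1.2 (j := x.2) (by omega)).2.2.2
    have h2 := (fl hQ n x.1 (j := x.2 + 1) (by omega)).2.2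
    have h3 : 1 ≤ ⌊δ * n⌋₊ := Nat.le_floor (by push_cast; linarith)
    omega
  dis x y hne hi := by
    have hx : x.1 = y.1 := Fin.ext hi
    have h3 : 1 ≤ ⌊δ * n⌋₊ := Nat.le_floor (by push_cast; linarith)
    have key : ∀ x y : Fin l × Fin (Q.m + 1), (x.1 : ℕ) = y.1 → (x.2 : ℕ) < y.2 →
        eW p n Q ⌊δ * n⌋₊ x.1 x.2 + (⌊δ * n⌋₊ - 1) ≤ sW p n Q ⌊δ * n⌋₊ y.1 y.2 := by
      intro x y h1 h2
      have a1 := (ends_bd (p := p) hQ hg hδ hδg hn x.1.2 (j := x.2) (by omega)).2.2.2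
      have a2 := (ends_bd (p := p) hQ hg hδ hδg hn y.1.2 (j := y.2) (by omega)).2.2.1
      have a3 : ⌊Q.θ x.1 (x.2 + 1) * n⌋₊ ≤ ⌊Q.θ y.1 y.2 * n⌋₊ := by
        rw [h1]
        exact Nat.floor_le_floor (mul_le_mul_of_nonneg_right
          (theta_mono hQ y.1 (by omega) (by omega)) (Nat.cast_nonneg n))
      omega
    have h4 : (x.2 : ℕ) ≠ y.2 := fun h => hne (Prod.ext hx (Fin.ext h))
    rcases lt_or_gt_of_ne h4 with h | h
    · exact Or.inl (key x y hi h)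
    · exact Or.inr (key y x hi.symm h)

/-! ### bounds for positions -/

theorem nm_nonneg (v : ℤ × ℤ) : 0 ≤ nm v := by
  unfold nm
  positivity

/-- A bound for the polygon and the squares. -/
noncomputable def R0 (p : ZMod l → ℤ × ℤ) (S₀ : Finset (ℤ × ℤ)) : ℝ :=
  ∑ i ∈ range l, (nm (p i) : ℝ) + ∑ f ∈ S₀, (nm f : ℝ)

theorem le_R0 (i : ℕ) (hi : i < l) : (nm (p i) : ℝ) ≤ R0 p S₀ := by
  have nm0 : ∀ v : ℤ × ℤ, (0 : ℝ) ≤ nm v := fun v => by exact_mod_cast nm_nonneg v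
  have h1 := single_le_sum (f := fun i : ℕ => (nm (p i) : ℝ)) (fun i _ => nm0 _) (mem_range.2 hi)
  have h2 : (0 : ℝ) ≤ ∑ f ∈ S₀, (nm f : ℝ) := sum_nonneg fun f _ => nm0 f
  unfold R0
  linarith

theorem le_R0' {f : ℤ × ℤ} (hf : f ∈ S₀) : (nm f : ℝ) ≤ R0 p S₀ := by
  have nm0 : ∀ v : ℤ × ℤ, (0 : ℝ) ≤ nm v := fun v => by exact_mod_cast nm_nonneg v
  have h1 := single_le_sum (f := fun f : ℤ × ℤ => (nm f : ℝ)) (fun i _ => nm0 _) hf
  have h2 : (0 : ℝ) ≤ ∑ i ∈ range l, (nm (p i) : ℝ) := sum_nonneg fun f _ => nm0 _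
  unfold R0
  linarith

theorem nm_smul_nat (n : ℕ) (v : ℤ × ℤ) : nm ((n : ℤ) • v) = n * nm v := by
  unfold nm
  simp only [Prod.smul_fst, Prod.smul_snd, smul_eq_mul, abs_mul, Nat.abs_cast]
  rw [mul_max_of_nonneg _ _ (Nat.cast_nonneg n)]

/-- Sites of the sides. -/
theorem nm_vp {i : ℕ} (hi : i < l) {σ : ℕ} (hσ : σ ≤ n) :
    (nm (vp p n i σ) : ℝ) ≤ (R0 p S₀ + 1) * n := by
  have h1 := nm_add ((n : ℤ) • p (i : ℕ)) ((σ : ℤ) • dir (pdir p i))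
  rw [nm_smul_nat, nm_dir, Nat.abs_cast] at h1
  have h2 : (nm (vp p n i σ) : ℝ) ≤ n * nm (p (i : ℕ)) + σ := by exact_mod_cast h1
  have h3 := le_R0 (p := p) (S₀ := S₀) i hi
  have h4 : (σ : ℝ) ≤ n := by exact_mod_cast hσ
  have h5 : (0 : ℝ) ≤ n := Nat.cast_nonneg n
  nlinarith

/-- Squares of the enlargement. -/
theorem nm_enl {v : ℤ × ℤ} (hv : v ∈ enl S₀ n) : (nm v : ℝ) ≤ (R0 p S₀ + 1) * n := by
  obtain ⟨f, hf, h1, h2⟩ := H327.mem_enl.1 hv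
  have r2 := le_R0' (p := p) hf
  have hn0' : (0 : ℝ) ≤ n := Nat.cast_nonneg n
  have key : ∀ {a b : ℤ}, |b| ≤ nm f → n * b ≤ a → a < n * b + n →
      |(a : ℝ)| ≤ (R0 p S₀ + 1) * n := by
    intro a b hb u1 u2
    have u1' : (n : ℝ) * b ≤ a := by exact_mod_cast u1
    have u2' : (a : ℝ) < n * b + n := by exact_mod_cast u2
    have hb' : |(b : ℝ)| ≤ nm f := by exact_mod_cast hb
    rw [abs_le] at hb' ⊢
    constructor
    · nlinarith [hb'.1]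
    · nlinarith [hb'.2]
  have e1 : (nm v : ℝ) = max |(v.1 : ℝ)| |(v.2 : ℝ)| := by
    simp [nm]
  rw [e1]
  exact max_le (key (le_max_left _ _) h1.1 h1.2) (key (le_max_right _ _) h2.1 h2.2)

/-! ### admissibility -/

variable {ι : Type} {i s e : ι → ℕ} {m : ℕ}

/-- Boundary edges of a row are in a box. -/
theorem Rows.box (h : Rows l n m i s e) (hn : 0 < n) {x : ι} {g : Ed}
    (hg : g ∈ bS (rowP p n (i x) (s x) (e x))) : (nm (epos g) : ℝ) ≤ (R0 p S₀ + 3) * n := by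
  obtain ⟨σ, h1, h2, h3⟩ := row_near hg
  have a1 := h.hi x
  have a2 := nm_vp (p := p) (S₀ := S₀) (n := n) (h.lt x) (σ := σ) (by omega)
  have a3 := nm_add (epos g - vp p n (i x) σ) (vp p n (i x) σ)
  rw [sub_add_cancel] at a3
  have a4 : (nm (epos g) : ℝ) ≤ 2 + nm (vp p n (i x) σ) := by
    have : nm (epos g) ≤ 2 + nm (vp p n (i x) σ) := by omega
    exact_mod_cast this
  have a5 : (1 : ℝ) ≤ n := by exact_mod_cast hn
  nlinarith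

/-- **Admissibility** of walls with the edges of rows. -/
theorem Rows.adm [Fintype ι] (h : Rows l n m i s e) (hp : IsPolygon p) (hD : Encloses p S₀)
    {κ₀ κ B : ℝ} (hκ₀ : 0 < κ₀) (hn : 0 < n) (hκ : κ * n ≤ (m : ℝ) - 4) (hκ' : κ * n + 3 ≤ κ₀ * n)
    {w : ι → WallG} (hw : ∀ x, (w x).S = bS (rowP p n (i x) (s x) (e x))) {c : Ed → ℝ}
    (hc : FlowIn (enl S₀ n) κ₀ B n c) : (⟨w, c⟩ : WCG ι).Adm κ (R0 p S₀ + 3) B n where
  box x g hg := by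
    have hg' : g ∈ bS (rowP p n (i x) (s x) (e x)) := by rw [← hw]; exact hg
    exact h.box hn hg'
  sep x y hne g hg g' hg' := by
    have h1 : g ∈ bS (rowP p n (i x) (s x) (e x)) := by rw [← hw]; exact hg
    have h2 : g' ∈ bS (rowP p n (i y) (s y) (e y)) := by rw [← hw]; exact hg'
    have h3 := h.sep hp hne h1 h2
    have h4 : (m : ℝ) - 4 ≤ nm (epos g - epos g') := by exact_mod_cast h3
    linarith
  csup g hg := by
    have hn1 : (1 : ℝ) ≤ n := by exact_mod_cast hn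
    constructor
    · have h1 : epos g ∈ enl S₀ n := by
        refine hc.sup g hg _ ?_
        rw [sub_self]
        have e0 : nm (0 : ℤ × ℤ) = 0 := by simp [nm]
        rw [e0]
        push_cast
        positivity
      have := nm_enl (p := p) h1
      nlinarith
    · intro x g' hg'
      have h2 : g' ∈ bS (rowP p n (i x) (s x) (e x)) := by rw [← hw]; exact hg'
      obtain ⟨σ, h3, h4, h5⟩ := row_near h2
      by_contra hlt
      push Not at hlt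
      have a1 := h.hi x
      refine op_out hp hD (h.lt x) (σ := σ) (by omega) (hc.sup g hg _ ?_)
      have b1 := op_near (p := p) (n := n) (i x) σ
      have b2 := nm_tri (op p n (i x) σ) (vp p n (i x) σ) (epos g)
      have b3 := nm_tri (vp p n (i x) σ) (epos g') (epos g)
      have b4 := nm_sub_comm (vp p n (i x) σ) (epos g')
      have b5 := nm_sub_comm (epos g') (epos g)
      have b6 : nm (op p n (i x) σ - epos g) ≤ 3 + nm (epos g - epos g') := by omega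
      have b7 : (nm (op p n (i x) σ - epos g) : ℝ) ≤ 3 + nm (epos g - epos g') := by
        exact_mod_cast b6
      linarith
  cle := hc.cle
  dle := hc.dle

end Vale.Agent.P167.Enl
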