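import Vale.Agent.P167.H592.T.FamA

/-!
# P167, general `q`: the kinds of the rows of the frame of a polygon
-/

namespace Vale.Agent.P167.Enl

open Finset Filter Topology
open Vale.Agent.P167.E6 (IsPolygon Encloses dir face)
open Vale.Agent.P167.H825 (enl pdir epos Marks rnd bsite Box FlowIn ptau)
open Vale.Agent.P167.BR (ce be)
open Vale.Agent.P167.XDL (bS mem_bS)
open Vale.Agent.P167.H199 (Gap sp MgR mth reg c0 Gen mgR_reg marks_mem marks_mono)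
open Vale.Agent.P167.H680 (Mg)
open Vale.Agent.P167.H825.Q (Row srow osq mem_srow srow_L Bc stΦ stτ stτ_or frow PT)

variable {l : ℕ} {p : ZMod l → ℤ × ℤ} {n : ℕ} {S₀ : Finset (ℤ × ℤ)} {Q : Marks} {b : Box}
  {θ β : ℝ} {bc : Bc} {d : ℕ}

/-- The squares of the rows. -/
theorem frow_I (i j : ℕ) : (frow θ β p Q n d bc i j).I =
    rowP p n i (sW p n Q d i j) (eW p n Q d i j) := by
  ext v
  unfold frow
  rw [mem_srow, mem_rowP]
  rfl

/-- The boundary of a row. -/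
theorem frow_S (z : ℝ) (i j : ℕ) : ((frow θ β p Q n d bc i j).wall θ z).S =
    bS (rowP p n i (sW p n Q d i j) (eW p n Q d i j)) := by
  rw [← frow_I (θ := θ) (β := β) (bc := bc) (d := d)]
  rfl

/-! ### phases of the steps -/

/-- The lifted direction of a step. -/
theorem uN_kOf {t i σ : ℕ} (hi : i < l) (ht : t < n) (hσ : σ < n) :
    uN p n t (kOf l n t i σ) = (((pdir p 0).val : ℕ) : ℤ) +
      ptau p (if t ≤ i * n + σ then i else l + i) := by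
  unfold uN
  rw [kOf_div hσ hi ht]

/-- The data of a row in terms of the first and the last step. -/
theorem srow_kind {z : ℤ × ℤ} {r : Fin 4} {s e jp : ℕ} {F T : ℕ → ℝ} {κ : ℝ} (hn : κ * n ≤ e - s)
    (hse : s ≤ e) (hT : ∀ σ, T σ = 1 ∨ T σ = -1)
    (hk : (F s = F (e - 1) ∧ T s = T (e - 1)) ∨
      ((((|F (e - 1) - F s| = (Real.pi - θ) / 2 ∨ |F (e - 1) - F s| = (Real.pi - 3 * θ) / 2) ∧
        T s = - T (e - 1)) ∨ (|F (e - 1) - F s| = θ ∧ T s = T (e - 1))) ∧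
        s + κ * n ≤ jp ∧ jp + κ * n ≤ e ∧ s ≤ jp ∧ jp ≤ e)) :
    (srow z r s e jp F T).Ok θ κ n := by
  have hL : ((e - s : ℕ) : ℝ) = e - s := by rw [Nat.cast_sub hse]
  have sq : ∀ σ, T σ * T σ = 1 := fun σ => by rcases hT σ with h | h <;> rw [h] <;> norm_num
  have kind : ∀ {j η : ℝ} {k0 : ℕ}, (|j| = |F (e - 1) - F s|) → η = T s * T (e - 1) →
      ((k0 : ℝ) = jp - s ∨ (k0 : ℝ) = e - jp ∨ ¬ (s ≤ jp ∧ jp ≤ e)) →
      ((j = 0 ∧ η = 1) ∨ ((((|j| = (Real.pi - θ) / 2 ∨ |j| = (Real.pi - 3 * θ) / 2) ∧ η = -1) ∨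
      (|j| = θ ∧ η = 1)) ∧ κ * n ≤ k0 ∧ k0 + κ * n ≤ ((e - s : ℕ) : ℝ))) := by
    intro j η k0 hj hη hk0
    rcases hk with ⟨h1, h2⟩ | ⟨h1, h2, h3, h4, h5⟩
    · left
      rw [h1, sub_self, abs_zero, abs_eq_zero] at hj
      exact ⟨hj, by rw [hη, h2, sq]⟩
    · right
      rw [hL]
      refine ⟨?_, ?_, ?_⟩
      · rw [hj]
        rcases h1 with ⟨h6, h7⟩ | ⟨h6, h7⟩
        · exact Or.inl ⟨h6, by rw [hη, h7, neg_mul, sq]⟩
        · exact Or.inr ⟨h6, by rw [hη, h7, sq]⟩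
      · rcases hk0 with h | h | h
        · rw [h]; linarith
        · rw [h]; linarith
        · exact absurd ⟨h4, h5⟩ h
      · rcases hk0 with h | h | h
        · rw [h]; linarith
        · rw [h]; linarith
        · exact absurd ⟨h4, h5⟩ h
  have c1 : ((jp - s : ℕ) : ℝ) = jp - s ∨ ((jp - s : ℕ) : ℝ) = e - jp ∨ ¬ (s ≤ jp ∧ jp ≤ e) := by
    by_cases h : s ≤ jp
    · exact Or.inl (Nat.cast_sub h)
    · exact Or.inr (Or.inr fun h' => h h'.1)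
  have c2 : ((e - jp : ℕ) : ℝ) = jp - s ∨ ((e - jp : ℕ) : ℝ) = e - jp ∨ ¬ (s ≤ jp ∧ jp ≤ e) := by
    by_cases h : jp ≤ e
    · exact Or.inr (Or.inl (Nat.cast_sub h))
    · exact Or.inr (Or.inr fun h' => h h'.2)
  rcases fin4_cases r with rfl | rfl | rfl | rfl
  · exact ⟨by show κ * n ≤ ((e - s : ℕ) : ℝ); rw [hL]; exact hn, hT s, kind rfl rfl c1⟩
  · exact ⟨by show κ * n ≤ ((e - s : ℕ) : ℝ); rw [hL]; exact hn, hT s, kind rfl rfl c1⟩
  · exact ⟨by show κ * n ≤ ((e - s : ℕ) : ℝ); rw [hL]; exact hn, hT (e - 1),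
      kind (abs_sub_comm _ _) rfl c2⟩
  · exact ⟨by show κ * n ≤ ((e - s : ℕ) : ℝ); rw [hL]; exact hn, hT (e - 1),
      kind (abs_sub_comm _ _) rfl c2⟩

/-! ### the wired steps -/

/-- Comparison with the first wired step. -/
theorem kOf_lt_kOf {t i σ ia a : ℕ} (hi : i < l) (ht : t < n) (_ : σ < n) (h0 : 0 < ia)
    (hia : ia < l) (ha : a < n) :
    kOf l n t i σ < kOf l n t ia a ↔ t ≤ i * n + σ ∧ i * n + σ < ia * n + a := by
  have h1 : 1 * n ≤ ia * n := Nat.mul_le_mul_right n h0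
  have h2 : (ia + 1) * n ≤ l * n := Nat.mul_le_mul_right n hia
  have h3 : (i + 1) * n ≤ l * n := Nat.mul_le_mul_right n hi
  rw [one_mul] at h1
  rw [add_mul, one_mul] at h2 h3
  unfold kOf
  rw [if_pos (show t ≤ ia * n + a by omega)]
  split_ifs with h
  · constructor <;> intro h' <;> omega
  · constructor <;> intro h' <;> omega

/-- The junction is far from the marks of its side. -/
def BGap (l : ℕ) (Q : Marks) (g : ℝ) : Bc → Prop
  | .dob ia ta => 0 < ia ∧ ia < l ∧ 0 < ta ∧ ta < 1 ∧ ∀ j ≤ Q.m + 1, g ≤ |Q.θ ia j - ta|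
  | _ => True

theorem exists_BGap (h : bc.Ok l Q) : ∃ g > 0, BGap l Q g bc := by
  rcases bc with _ | _ | ⟨ia, ta⟩
  · exact ⟨1, one_pos, trivial⟩
  · exact ⟨1, one_pos, trivial⟩
  · obtain ⟨h1, h2, h3, h4, h5⟩ := h
    obtain ⟨g, hg, hg'⟩ := H199.exists_gap (range (Q.m + 2)) (fun j => |Q.θ ia j - ta|)
      fun j _ => abs_pos.2 (sub_ne_zero.2 (h5 j))
    exact ⟨g, hg, h1, h2, h3, h4, fun j hj => hg' j (mem_range.2 (by omega))⟩

theorem BGap.mono {g g' : ℝ} (h : BGap l Q g bc) (hg : g' ≤ g) : BGap l Q g' bc := by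
  rcases bc with _ | _ | ⟨ia, ta⟩
  · trivial
  · trivial
  · exact ⟨h.1, h.2.1, h.2.2.1, h.2.2.2.1, fun j hj => hg.trans (h.2.2.2.2 j hj)⟩

/-- Values at the steps. -/
theorem stΦ_eq {u : ℕ → ℤ} {ka k : ℕ} (h : k < ka) : stΦ θ β u ka k = θ / 4 * u k ∧ stτ ka k = 1 := by
  unfold stΦ stτ
  rw [if_pos h, if_pos h, add_zero]
  exact ⟨rfl, rfl⟩

theorem stΦ_eq' {u : ℕ → ℤ} {ka k : ℕ} (h : ¬ k < ka) :
    stΦ θ β u ka k = θ / 4 * u k + β ∧ stτ ka k = -1 := by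
  unfold stΦ stτ
  rw [if_neg h, if_neg h]
  exact ⟨rfl, rfl⟩

/-- The ends of a row of the frame. -/
structure RB (l n : ℕ) (Q : Marks) (g δ : ℝ) (i j s e : ℕ) : Prop where
  n0 : 0 < n
  il : i < l
  jm : j ≤ Q.m
  ht : tB n Q < n
  s1 : (Q.θ i j + δ) * n - 2 ≤ s
  s2 : (s : ℝ) ≤ (Q.θ i j + δ) * n + 1
  e1 : (Q.θ i (j + 1) - δ) * n - 1 ≤ e
  e2 : (e : ℝ) ≤ (Q.θ i (j + 1) - δ) * n + 2
  s3 : ⌊Q.θ i j * n⌋₊ < s
  e3 : e ≤ ⌊Q.θ i (j + 1) * n⌋₊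
  hn : 16 ≤ δ * n
  gn : 4 * (δ * n) ≤ g * n
  len : δ * n ≤ (e : ℝ) - s
  se : s < e
  sn : s < n
  en : e - 1 < n

theorem rb_of (hQ : Q.Ok) {g δ : ℝ} (hg : Gap Q l g) (hδ : 0 < δ) (hδg : 4 * δ ≤ g)
    (hn : 16 ≤ δ * n) {i j : ℕ} (hi : i < l) (hj : j ≤ Q.m) :
    RB l n Q g δ i j (sW p n Q ⌊δ * n⌋₊ i j) (eW p n Q ⌊δ * n⌋₊ i j) := by
  have hn0 : (0 : ℝ) ≤ n := Nat.cast_nonneg n
  have hnpos : 0 < n := by
    rcases Nat.eq_zero_or_pos n with h | h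
    · rw [h] at hn; norm_num at hn
    · exact h
  obtain ⟨⟨s1, s2⟩, ⟨e1, e2⟩, s3, e3⟩ := ends_bd (p := p) hQ hg hδ hδg hn hi hj
  have g1 := hg.1 i hi j hj
  have hδ1 : 1 ≤ ⌊δ * n⌋₊ := Nat.le_floor (by push_cast; linarith)
  have hfl : ⌊Q.θ i (j + 1) * n⌋₊ ≤ n := (fl hQ n i (j := j + 1) (by omega)).2.2
  generalize sW p n Q ⌊δ * n⌋₊ i j = s at *
  generalize eW p n Q ⌊δ * n⌋₊ i j = e at *
  have hgn : 4 * (δ * n) ≤ g * n := by nlinarith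
  have g1n : Q.θ i j * n + g * n ≤ Q.θ i (j + 1) * n := by nlinarith
  have hlen : δ * n ≤ (e : ℝ) - s := by nlinarith
  have hse' : (s : ℝ) < e := by nlinarith
  have hse : s < e := by exact_mod_cast hse'
  exact ⟨hnpos, hi, hj, tB_lt hQ hnpos, s1, s2, e1, e2, by omega, by omega, hn, hgn, hlen, hse,
    by omega, by omega⟩

/-- The possible kinds of a row with the first step `s` and the last step `e - 1`. -/
def Knd (θ β : ℝ) (p : ZMod l → ℤ × ℤ) (n t ka i s e jp : ℕ) (δ : ℝ) : Prop :=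
  (stΦ θ β (uN p n t) ka (kOf l n t i s) = stΦ θ β (uN p n t) ka (kOf l n t i (e - 1)) ∧
    stτ ka (kOf l n t i s) = stτ ka (kOf l n t i (e - 1))) ∨
  ((((|stΦ θ β (uN p n t) ka (kOf l n t i (e - 1)) - stΦ θ β (uN p n t) ka (kOf l n t i s)| =
        (Real.pi - θ) / 2 ∨
      |stΦ θ β (uN p n t) ka (kOf l n t i (e - 1)) - stΦ θ β (uN p n t) ka (kOf l n t i s)| =
        (Real.pi - 3 * θ) / 2) ∧
      stτ ka (kOf l n t i s) = - stτ ka (kOf l n t i (e - 1))) ∨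
    (|stΦ θ β (uN p n t) ka (kOf l n t i (e - 1)) - stΦ θ β (uN p n t) ka (kOf l n t i s)| = θ ∧
      stτ ka (kOf l n t i s) = stτ ka (kOf l n t i (e - 1)))) ∧
    s + δ * n ≤ jp ∧ jp + δ * n ≤ e ∧ s ≤ jp ∧ jp ≤ e)

/-- The same values at both ends. -/
theorem knd_same {t ka i s e jp : ℕ} {δ : ℝ} (hi : i < l) (ht : t < n) (hs : s < n)
    (he : e - 1 < n) (h1 : t ≤ i * n + s ↔ t ≤ i * n + (e - 1))
    (h2 : kOf l n t i s < ka ↔ kOf l n t i (e - 1) < ka) : Knd θ β p n t ka i s e jp δ := by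
  left
  have h3 : uN p n t (kOf l n t i s) = uN p n t (kOf l n t i (e - 1)) := by
    rw [uN_kOf hi ht hs, uN_kOf hi ht he]
    by_cases h : t ≤ i * n + s
    · rw [if_pos h, if_pos (h1.1 h)]
    · rw [if_neg h, if_neg fun h' => h (h1.2 h')]
  by_cases h : kOf l n t i s < ka
  · have a1 := stΦ_eq (θ := θ) (β := β) (u := uN p n t) h
    have a2 := stΦ_eq (θ := θ) (β := β) (u := uN p n t) (h2.1 h)
    rw [a1.1, a1.2, a2.1, a2.2, h3]
    exact ⟨rfl, rfl⟩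
  · have h' : ¬ kOf l n t i (e - 1) < ka := fun h' => h (h2.2 h')
    have a1 := stΦ_eq' (θ := θ) (β := β) (u := uN p n t) h
    have a2 := stΦ_eq' (θ := θ) (β := β) (u := uN p n t) h'
    rw [a1.1, a1.2, a2.1, a2.2, h3]
    exact ⟨rfl, rfl⟩

theorem dob_lt {ta : ℝ} (h3 : 0 < ta) (h4 : ta < 1) (hn : 0 < n) : ⌊ta * n⌋₊ < n := by
  rw [Nat.floor_lt (by positivity)]
  have : (0 : ℝ) < n := by exact_mod_cast hn
  nlinarith

/-- The comparison is the same at both ends. -/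
theorem ka_same {t i s e : ℕ} (hi : i < l) (ht : t < n) (hs : s < n) (he : e - 1 < n)
    (hd : ∀ ia ta, bc = Bc.dob ia ta → 0 < ia ∧ ia < l ∧ 0 < ta ∧ ta < 1 ∧
      ((t ≤ i * n + s ∧ i * n + s < ia * n + ⌊ta * n⌋₊) ↔
        (t ≤ i * n + (e - 1) ∧ i * n + (e - 1) < ia * n + ⌊ta * n⌋₊))) :
    kOf l n t i s < bc.ka l n t ↔ kOf l n t i (e - 1) < bc.ka l n t := by
  rcases bc with _ | _ | ⟨ia, ta⟩
  · exact ⟨fun _ => kOf_lt hi he ht, fun _ => kOf_lt hi hs ht⟩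
  · exact ⟨fun h => absurd h (Nat.not_lt_zero _), fun h => absurd h (Nat.not_lt_zero _)⟩
  · obtain ⟨k1, k2, k3, k4, k5⟩ := hd ia ta rfl
    have h6 := dob_lt (n := n) k3 k4 (by omega)
    show kOf l n t i s < kOf l n t ia ⌊ta * n⌋₊ ↔ kOf l n t i (e - 1) < kOf l n t ia ⌊ta * n⌋₊
    rw [kOf_lt_kOf hi ht hs k1 k2 h6, kOf_lt_kOf hi ht he k1 k2 h6]
    exact k5

/-- The row of the base point. -/
theorem knd_base (hp : IsPolygon p) (hD : Encloses p S₀) (hθ : 0 < θ)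
    (hθ' : 3 * θ ≤ Real.pi) (hβ : β = (θ - Real.pi) / 2 ∨ β = (Real.pi - 3 * θ) / 2) {t s e : ℕ}
    {δ : ℝ} (hl : 0 < l) (ht : t < n) (hs : s < n) (he : e - 1 < n) (r5 : s < t) (r6 : t < e)
    (r1 : (s : ℝ) + δ * n ≤ t) (r2 : (t : ℝ) + δ * n ≤ e)
    (hd : ∀ ia ta, bc = Bc.dob ia ta → 0 < ia ∧ ia < l ∧ 0 < ta ∧ ta < 1) :
    Knd θ β p n t (bc.ka l n t) 0 s e t δ := by
  right
  refine ⟨?_, r1, r2, r5.le, r6.le⟩
  have u1 : uN p n t (kOf l n t 0 s) = (((pdir p 0).val : ℕ) : ℤ) + 4 := by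
    have := uN_kOf (p := p) hl ht hs
    rw [if_neg (by omega), add_zero, ptau_l hp hD] at this
    exact this
  have u2 : uN p n t (kOf l n t 0 (e - 1)) = (((pdir p 0).val : ℕ) : ℤ) := by
    have := uN_kOf (p := p) hl ht he
    rw [if_pos (by omega)] at this
    rw [this]
    show _ + ptau p 0 = _
    have : ptau p 0 = 0 := rfl
    rw [this, add_zero]
  rcases bc with _ | _ | ⟨ia, ta⟩
  · right
    have a1 := stΦ_eq (θ := θ) (β := β) (u := uN p n t) (kOf_lt hl hs ht)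
    have a2 := stΦ_eq (θ := θ) (β := β) (u := uN p n t) (kOf_lt hl he ht)
    show |stΦ θ β (uN p n t) (l * n) _ - stΦ θ β (uN p n t) (l * n) _| = θ ∧
      stτ (l * n) _ = stτ (l * n) _
    rw [a1.1, a1.2, a2.1, a2.2, u1, u2]
    refine ⟨?_, rfl⟩
    push_cast
    rw [show θ / 4 * ((pdir p 0 : ℕ) : ℝ) - θ / 4 * (((pdir p 0 : ℕ) : ℝ) + 4) = -θ by ring,
      abs_neg, abs_of_pos hθ]
  · right
    have a1 := stΦ_eq' (θ := θ) (β := β) (u := uN p n t) (Nat.not_lt_zero (kOf l n t 0 s))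
    have a2 := stΦ_eq' (θ := θ) (β := β) (u := uN p n t) (Nat.not_lt_zero (kOf l n t 0 (e - 1)))
    show |stΦ θ β (uN p n t) 0 _ - stΦ θ β (uN p n t) 0 _| = θ ∧ stτ 0 _ = stτ 0 _
    rw [a1.1, a1.2, a2.1, a2.2, u1, u2]
    refine ⟨?_, rfl⟩
    push_cast
    rw [show θ / 4 * ((pdir p 0 : ℕ) : ℝ) + β - (θ / 4 * (((pdir p 0 : ℕ) : ℝ) + 4) + β) =
      -θ by ring, abs_neg, abs_of_pos hθ]
  · left
    obtain ⟨k1, k2, k3, k4⟩ := hd ia ta rfl
    have h6 := dob_lt (n := n) k3 k4 (by omega)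
    have h7 : 1 * n ≤ ia * n := Nat.mul_le_mul_right n k1
    have b1 : ¬ kOf l n t 0 s < kOf l n t ia ⌊ta * n⌋₊ := by
      rw [kOf_lt_kOf hl ht hs k1 k2 h6]
      omega
    have b2 : kOf l n t 0 (e - 1) < kOf l n t ia ⌊ta * n⌋₊ := by
      rw [kOf_lt_kOf hl ht he k1 k2 h6]
      omega
    have a1 := stΦ_eq' (θ := θ) (β := β) (u := uN p n t) b1
    have a2 := stΦ_eq (θ := θ) (β := β) (u := uN p n t) b2
    show (|stΦ θ β (uN p n t) (kOf l n t ia ⌊ta * n⌋₊) _ -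
        stΦ θ β (uN p n t) (kOf l n t ia ⌊ta * n⌋₊) _| = _ ∨
      |stΦ θ β (uN p n t) (kOf l n t ia ⌊ta * n⌋₊) _ -
        stΦ θ β (uN p n t) (kOf l n t ia ⌊ta * n⌋₊) _| = _) ∧
      stτ (kOf l n t ia ⌊ta * n⌋₊) _ = - stτ (kOf l n t ia ⌊ta * n⌋₊) _
    rw [a1.1, a1.2, a2.1, a2.2, u1, u2]
    refine ⟨?_, rfl⟩
    push_cast
    rw [show θ / 4 * ((pdir p 0 : ℕ) : ℝ) - (θ / 4 * (((pdir p 0 : ℕ) : ℝ) + 4) + β) =
      -(β + θ) by ring, abs_neg]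
    rcases hβ with h | h
    · right; rw [h, abs_of_nonpos (by linarith)]; ring
    · left; rw [h, abs_of_nonneg (by linarith)]; ring

/-- The row of the junction. -/
theorem knd_jun (hθ : 0 < θ) (hθ' : 3 * θ ≤ Real.pi)
    (hβ : β = (θ - Real.pi) / 2 ∨ β = (Real.pi - 3 * θ) / 2) {t i s e a : ℕ} {δ : ℝ}
    (hi : i < l) (hi0 : 0 < i) (ht : t < n) (hs : s < n) (he : e - 1 < n) (r5 : s < a)
    (r6 : a < e) (ha : a < n) (r1 : (s : ℝ) + δ * n ≤ a) (r2 : (a : ℝ) + δ * n ≤ e) :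
    Knd θ β p n t (kOf l n t i a) i s e a δ := by
  right
  refine ⟨Or.inl ?_, r1, r2, r5.le, r6.le⟩
  have h8 : 1 * n ≤ i * n := Nat.mul_le_mul_right n hi0
  have b1 : kOf l n t i s < kOf l n t i a := by rw [kOf_lt_kOf hi ht hs hi0 hi ha]; omega
  have b2 : ¬ kOf l n t i (e - 1) < kOf l n t i a := by
    rw [kOf_lt_kOf hi ht he hi0 hi ha]; omega
  have a1 := stΦ_eq (θ := θ) (β := β) (u := uN p n t) b1
  have a2 := stΦ_eq' (θ := θ) (β := β) (u := uN p n t) b2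
  have u1 := uN_kOf (p := p) hi ht hs
  have u2 := uN_kOf (p := p) hi ht he
  rw [if_pos (by omega)] at u1 u2
  rw [a1.1, a1.2, a2.1, a2.2, u1, u2, add_sub_cancel_left]
  refine ⟨?_, by norm_num⟩
  rcases hβ with h | h
  · left; rw [h, abs_of_nonpos (by linarith)]; ring
  · right; rw [h, abs_of_nonneg (by linarith)]

/-- The side of the base point. -/
theorem knd_zero (hp : IsPolygon p) (hD : Encloses p S₀) (hQ : Q.Ok) (hθ : 0 < θ)
    (hθ' : 3 * θ ≤ Real.pi) (hβ : β = (θ - Real.pi) / 2 ∨ β = (Real.pi - 3 * θ) / 2) {g δ : ℝ}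
    (hg : Gap Q l g) (hbg : BGap l Q g bc) {j s e : ℕ} (h : RB l n Q g δ 0 j s e) :
    Knd θ β p n (tB n Q) (bc.ka l n (tB n Q)) 0 s e (tB n Q) δ := by
  have hn0 : (0 : ℝ) ≤ n := Nat.cast_nonneg n
  have hd : ∀ ia ta, bc = Bc.dob ia ta → 0 < ia ∧ ia < l ∧ 0 < ta ∧ ta < 1 := by
    rintro ia ta rfl
    exact ⟨hbg.1, hbg.2.1, hbg.2.2.1, hbg.2.2.2.1⟩
  have htp := hQ.tp0
  have tpn : (tB n Q : ℝ) ≤ Q.tp * n ∧ Q.tp * n < tB n Q + 1 :=
    ⟨Nat.floor_le (by positivity), Nat.lt_floor_add_one _⟩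
  have s3 := h.s3
  have e3 := h.e3
  have hse := h.se
  have hsn := h.sn
  have hen := h.en
  have same : (tB n Q ≤ s ↔ tB n Q ≤ e - 1) →
      Knd θ β p n (tB n Q) (bc.ka l n (tB n Q)) 0 s e (tB n Q) δ := by
    intro h1
    have h1' : tB n Q ≤ 0 * n + s ↔ tB n Q ≤ 0 * n + (e - 1) := by omega
    refine knd_same h.il h.ht hsn hen h1' (ka_same h.il h.ht hsn hen fun ia ta hb => ?_)
    obtain ⟨k1, k2, k3, k4⟩ := hd ia ta hb
    have h7 : 1 * n ≤ ia * n := Nat.mul_le_mul_right n k1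
    refine ⟨k1, k2, k3, k4, ?_⟩
    omega
  rcases lt_or_ge Q.tp (Q.θ 0 j) with hc | hc
  · have h1 : tB n Q ≤ ⌊Q.θ 0 j * n⌋₊ :=
      Nat.floor_le_floor (mul_le_mul_of_nonneg_right hc.le hn0)
    exact same (by omega)
  · rcases lt_or_ge Q.tp (Q.θ 0 (j + 1)) with hc' | hc'
    · have hc2 : Q.θ 0 j < Q.tp := lt_of_le_of_ne hc (hQ.tpne j)
      obtain ⟨q1, q2⟩ := hg.tp h.jm hc2 hc'
      have q1n : Q.θ 0 j * n + g * n ≤ Q.tp * n := by nlinarith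
      have q2n : Q.tp * n + g * n ≤ Q.θ 0 (j + 1) * n := by nlinarith
      have s2 := h.s2
      have e1 := h.e1
      have hgn := h.gn
      have hn := h.hn
      have r1 : (s : ℝ) + δ * n ≤ tB n Q := by linarith
      have r2 : (tB n Q : ℝ) + δ * n ≤ e := by linarith
      have r3 : (s : ℝ) < tB n Q := by linarith
      have r4 : (tB n Q : ℝ) < e := by linarith
      exact knd_base hp hD hθ hθ' hβ h.il h.ht hsn hen (by exact_mod_cast r3)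
        (by exact_mod_cast r4) r1 r2 hd
    · have h1 : ⌊Q.θ 0 (j + 1) * n⌋₊ ≤ tB n Q :=
        Nat.floor_le_floor (mul_le_mul_of_nonneg_right hc' hn0)
      exact same (by omega)

/-- The other sides. -/
theorem knd_pos (hθ : 0 < θ) (hθ' : 3 * θ ≤ Real.pi)
    (hβ : β = (θ - Real.pi) / 2 ∨ β = (Real.pi - 3 * θ) / 2) {g δ : ℝ} (hbg : BGap l Q g bc)
    {i j s e : ℕ} (hi0 : 0 < i) (h : RB l n Q g δ i j s e) :
    Knd θ β p n (tB n Q) (bc.ka l n (tB n Q)) i s e (bc.tn n) δ := by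
  have hn0 : (0 : ℝ) ≤ n := Nat.cast_nonneg n
  have s3 := h.s3
  have e3 := h.e3
  have hse := h.se
  have hsn := h.sn
  have hen := h.en
  have ht := h.ht
  have h8 : 1 * n ≤ i * n := Nat.mul_le_mul_right n hi0
  have both : tB n Q ≤ i * n + s ↔ tB n Q ≤ i * n + (e - 1) := by omega
  by_cases hcase : ∃ ta, bc = Bc.dob i ta ∧ Q.θ i j ≤ ta ∧ ta < Q.θ i (j + 1)
  · obtain ⟨ta, rfl, hc, hc'⟩ := hcase
    obtain ⟨k1, k2, k3, k4, k5⟩ := hbg
    have d1 := k5 j (by have := h.jm; omega)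
    have d2 := k5 (j + 1) (by have := h.jm; omega)
    rw [abs_of_nonpos (by linarith)] at d1
    rw [abs_of_nonneg (by linarith)] at d2
    have tan : (⌊ta * n⌋₊ : ℝ) ≤ ta * n ∧ ta * n < ⌊ta * n⌋₊ + 1 :=
      ⟨Nat.floor_le (by positivity), Nat.lt_floor_add_one _⟩
    have q1n : Q.θ i j * n + g * n ≤ ta * n := by nlinarith
    have q2n : ta * n + g * n ≤ Q.θ i (j + 1) * n := by nlinarith
    have s2 := h.s2
    have e1 := h.e1
    have hgn := h.gn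
    have hn := h.hn
    have r1 : (s : ℝ) + δ * n ≤ ⌊ta * n⌋₊ := by linarith
    have r2 : (⌊ta * n⌋₊ : ℝ) + δ * n ≤ e := by linarith
    have r3 : (s : ℝ) < ⌊ta * n⌋₊ := by linarith
    have r4 : (⌊ta * n⌋₊ : ℝ) < e := by linarith
    exact knd_jun hθ hθ' hβ h.il hi0 ht hsn hen (by exact_mod_cast r3) (by exact_mod_cast r4)
      (dob_lt k3 k4 h.n0) r1 r2
  · refine knd_same h.il ht hsn hen both (ka_same h.il ht hsn hen fun ia ta hb => ?_)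
    subst hb
    obtain ⟨k1, k2, k3, k4, k5⟩ := hbg
    refine ⟨k1, k2, k3, k4, ?_⟩
    rcases lt_trichotomy i ia with hlt | rfl | hgt
    · have h9 : (i + 1) * n ≤ ia * n := Nat.mul_le_mul_right n hlt
      rw [add_mul, one_mul] at h9
      omega
    · rcases lt_or_ge ta (Q.θ i j) with hc | hc
      · have h1 : ⌊ta * n⌋₊ ≤ ⌊Q.θ i j * n⌋₊ :=
          Nat.floor_le_floor (mul_le_mul_of_nonneg_right hc.le hn0)
        omega
      · rcases lt_or_ge ta (Q.θ i (j + 1)) with hc' | hc'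
        · exact absurd ⟨ta, rfl, hc, hc'⟩ hcase
        · have h1 : ⌊Q.θ i (j + 1) * n⌋₊ ≤ ⌊ta * n⌋₊ :=
            Nat.floor_le_floor (mul_le_mul_of_nonneg_right hc' hn0)
          omega
    · have h9 : (ia + 1) * n ≤ i * n := Nat.mul_le_mul_right n hgt
      rw [add_mul, one_mul] at h9
      have h10 := dob_lt k3 k4 h.n0
      omega

/-- **The kinds of the rows of the frame.** -/
theorem frow_ok (hp : IsPolygon p) (hD : Encloses p S₀) (hQ : Q.Ok) (hθ : 0 < θ)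
    (hθ' : 3 * θ ≤ Real.pi) (hβ : β = (θ - Real.pi) / 2 ∨ β = (Real.pi - 3 * θ) / 2) {g δ : ℝ}
    (hg : Gap Q l g) (hbg : BGap l Q g bc) (hδ : 0 < δ) (hδg : 4 * δ ≤ g) (hn : 16 ≤ δ * n)
    {i j : ℕ} (hi : i < l) (hj : j ≤ Q.m) : (frow θ β p Q n ⌊δ * n⌋₊ bc i j).Ok θ δ n := by
  have h := rb_of (p := p) hQ hg hδ hδg hn hi hj
  unfold frow
  refine srow_kind h.len h.se.le (fun σ => stτ_or _ _) ?_
  rcases Nat.eq_zero_or_pos i with rfl | hi0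
  · rw [if_pos rfl]
    exact knd_zero hp hD hQ hθ hθ' hβ hg hbg h
  · rw [if_neg hi0.ne']
    exact knd_pos hθ hθ' hβ hbg hi0 h

end Vale.Agent.P167.Enl
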