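import Vale.Agent.P167.H592.T.Box
import Vale.Agent.P167.H562.Q.CB3
import Vale.Agent.P167.H680.T.Red

/-!
# P167, general `q`: boxes which see the squares of at most one row

If a box sees the frozen squares only in one row (of any kind), then the open squares and the closed
squares of the box outside of the domain belong to one primal and one dual cluster (`OneC`).
-/

namespace Vale.Agent.P167.Enl

open Finset
open Vale.Agent.P167.H166 (bxx mem_bxx)
open Vale.Agent.P167.H825 (Marks)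
open Vale.Agent.P167.H825.Q (Row)
open Vale.Agent.P167.H562.QM (OneP OneC QC mem_image_sh)
open Vale.Agent.P167.H680.T (uI mem_uI WCG rowC)

/-- A set of squares which is a rectangle. -/
def IsRect (S : Set (ℤ × ℤ)) : Prop := ∃ x0 x1 y0 y1 : ℤ, ∀ v : ℤ × ℤ,
  v ∈ S ↔ x0 ≤ v.1 ∧ v.1 < x1 ∧ y0 ≤ v.2 ∧ v.2 < y1

theorem IsRect.inter {S T : Set (ℤ × ℤ)} (h : IsRect S) (h' : IsRect T) : IsRect (S ∩ T) := by
  obtain ⟨x0, x1, y0, y1, hS⟩ := h
  obtain ⟨a0, a1, b0, b1, hT⟩ := h'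
  refine ⟨max x0 a0, min x1 a1, max y0 b0, min y1 b1, fun v => ?_⟩
  rw [Set.mem_inter_iff, hS, hT, max_le_iff, max_le_iff, lt_min_iff, lt_min_iff]
  tauto

theorem isRect_bxx (y : ℤ × ℤ) (a : ℤ) : IsRect {v | v ∈ bxx y a} := by
  refine ⟨y.1 - a, y.1 + a + 1, y.2 - a, y.2 + a + 1, fun v => ?_⟩
  rw [Set.mem_ofPred_eq, bxx, mem_product, mem_Icc, mem_Icc]
  constructor <;> intro h <;> omega

theorem IsRect.shift {S : Set (ℤ × ℤ)} (h : IsRect S) : IsRect {v | FKA.shi v ∈ S} := by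
  obtain ⟨x0, x1, y0, y1, hS⟩ := h
  refine ⟨x0 + 1, x1 + 1, y0, y1, fun v => ?_⟩
  rw [Set.mem_ofPred_eq, hS]
  show x0 ≤ v.1 - 1 ∧ v.1 - 1 < x1 ∧ y0 ≤ v.2 ∧ v.2 < y1 ↔ _
  constructor <;> intro h <;> omega

theorem oneP_rect {B D : Finset (ℤ × ℤ)} {ζ : Cfg}
    (h : IsRect {v | v ∈ B ∧ v ∉ D ∧ ζ v = true}) : OneP B D ζ := by
  obtain ⟨x0, x1, y0, y1, hS⟩ := h
  intro v hv hvD hv1 w hw hwD hw1
  exact QC.rect (fun u h1 h2 h3 h4 => (hS u).2 ⟨h1, h2, h3, h4⟩) ((hS v).1 ⟨hv, hvD, hv1⟩)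
    ((hS w).1 ⟨hw, hwD, hw1⟩)

/-- The steps of one colour form an interval. -/
theorem step_ivl (L k0 : ℕ) (c1 c2 b : Bool) : ∃ lo hi : ℤ, ∀ k : ℕ,
    (k < L ∧ (if k0 ≤ k then c2 else c1) = b) ↔ (lo ≤ k ∧ (k : ℤ) < hi) := by
  by_cases h1 : c1 = b
  · by_cases h2 : c2 = b
    · refine ⟨0, L, fun k => ?_⟩
      rw [h1, h2, ite_self]
      constructor
      · rintro ⟨h, -⟩; omega
      · intro h; exact ⟨by omega, rfl⟩
    · refine ⟨0, min L k0, fun k => ?_⟩
      split_ifs with h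
      · exact iff_of_false (fun h' => h2 h'.2) (by omega)
      · constructor
        · rintro ⟨h', -⟩; omega
        · intro h'; exact ⟨by omega, h1⟩
  · by_cases h2 : c2 = b
    · refine ⟨k0, L, fun k => ?_⟩
      split_ifs with h
      · constructor
        · rintro ⟨h', -⟩; omega
        · intro h'; exact ⟨by omega, h2⟩
      · exact iff_of_false (fun h' => h1 h'.2) (by omega)
    · refine ⟨0, 0, fun k => ?_⟩
      split_ifs with h
      · exact iff_of_false (fun h' => h2 h'.2) (by omega)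
      · exact iff_of_false (fun h' => h1 h'.2) (by omega)

theorem fr_sq (r : Row) (k : ℕ) : r.fr (r.sq k) =
    if r.k0 ≤ k then decide (r.s * r.η = -1) else decide (r.s * 1 = -1) := by
  unfold Row.fr
  rw [r.τ_sq]
  split_ifs <;> rfl

/-- **The squares of one colour of a row form a rectangle.** -/
theorem isRect_row (r : Row) (b : Bool) : IsRect {v | v ∈ r.I ∧ r.fr v = b} := by
  obtain ⟨lo, hi, h⟩ := step_ivl r.L r.k0 (decide (r.s * 1 = -1)) (decide (r.s * r.η = -1)) b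
  have hS : ∀ v, v ∈ {v | v ∈ r.I ∧ r.fr v = b} ↔ ∃ k : ℕ, lo ≤ k ∧ (k : ℤ) < hi ∧ v = r.sq k := by
    intro v
    rw [Set.mem_ofPred_eq]
    constructor
    · rintro ⟨h1, h2⟩
      unfold Row.I at h1
      rw [mem_image] at h1
      obtain ⟨k, h3, rfl⟩ := h1
      rw [mem_range] at h3
      rw [fr_sq] at h2
      obtain ⟨h4, h5⟩ := (h k).1 ⟨h3, h2⟩
      exact ⟨k, h4, h5, rfl⟩
    · rintro ⟨k, h1, h2, rfl⟩
      obtain ⟨h3, h4⟩ := (h k).2 ⟨h1, h2⟩
      rw [fr_sq]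
      exact ⟨mem_image.2 ⟨k, mem_range.2 h3, rfl⟩, h4⟩
  by_cases ho : r.o = true
  · refine ⟨r.x.1 + max lo 0, r.x.1 + hi, r.x.2, r.x.2 + 1, fun v => ?_⟩
    rw [hS]
    unfold Row.sq
    simp only [if_pos ho]
    constructor
    · rintro ⟨k, h1, h2, rfl⟩
      simp only
      omega
    · rintro ⟨h1, h2, h3, h4⟩
      refine ⟨(v.1 - r.x.1).toNat, by omega, by omega, ?_⟩
      ext
      · simp only; omega
      · simp only; omega
  · refine ⟨r.x.1, r.x.1 + 1, r.x.2 + max lo 0, r.x.2 + hi, fun v => ?_⟩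
    rw [hS]
    unfold Row.sq
    simp only [if_neg ho]
    constructor
    · rintro ⟨k, h1, h2, rfl⟩
      simp only
      omega
    · rintro ⟨h1, h2, h3, h4⟩
      refine ⟨(v.2 - r.x.2).toNat, by omega, by omega, ?_⟩
      ext
      · simp only; omega
      · simp only; omega

variable {D : Finset (ℤ × ℤ)} {η : Cfg} {y : ℤ × ℤ} {a : ℤ}

/-- **A box which sees only one row.** -/
theorem oneC_row (r : Row) (h1 : ∀ v ∈ bxx y a, v ∉ r.I → v ∈ D)
    (h2 : ∀ v ∈ bxx y a, v ∈ r.I → v ∉ D ∧ η v = r.fr v) : OneC y a D η := by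
  constructor
  · apply oneP_rect
    have e : {v | v ∈ bxx y a ∧ v ∉ D ∧ η v = true} =
        {v | v ∈ bxx y a} ∩ {v | v ∈ r.I ∧ r.fr v = true} := by
      ext v
      simp only [Set.mem_inter_iff, Set.mem_ofPred_eq]
      constructor
      · rintro ⟨k1, k2, k3⟩
        have k4 : v ∈ r.I := by
          by_contra k5
          exact k2 (h1 v k1 k5)
        exact ⟨k1, k4, (h2 v k1 k4).2 ▸ k3⟩
      · rintro ⟨k1, k2, k3⟩
        exact ⟨k1, (h2 v k1 k2).1, (h2 v k1 k2).2.trans k3⟩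
    rw [e]
    exact (isRect_bxx y a).inter (isRect_row r true)
  · apply oneP_rect
    have e : {v | v ∈ bxx (FKA.sh y) a ∧ v ∉ D.image (fun v => (v.1 + 1, v.2)) ∧
        FK.du η v = true} =
        {v | FKA.shi v ∈ ({v | v ∈ bxx y a} ∩ {v | v ∈ r.I ∧ r.fr v = false} :
          Set (ℤ × ℤ))} := by
      ext v
      simp only [Set.mem_inter_iff, Set.mem_ofPred_eq]
      rw [FKA.mem_bxx_sh, mem_image_sh]
      have e1 : FK.du η v = true ↔ η (FKA.shi v) = false := by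
        show (!η (FKA.shi v)) = true ↔ _
        cases η (FKA.shi v) <;> simp
      rw [e1]
      constructor
      · rintro ⟨k1, k2, k3⟩
        have k4 : FKA.shi v ∈ r.I := by
          by_contra k5
          exact k2 (h1 _ k1 k5)
        exact ⟨k1, k4, (h2 _ k1 k4).2 ▸ k3⟩
      · rintro ⟨k1, k2, k3⟩
        exact ⟨k1, (h2 _ k1 k2).1, (h2 _ k1 k2).2.trans k3⟩
    rw [e]
    exact ((isRect_bxx y a).inter (isRect_row r false)).shift

/-- **A box which sees only squares of the domain.** -/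
theorem oneC_in (h : ∀ v ∈ bxx y a, v ∈ D) : OneC y a D η := by
  refine oneC_row ⟨true, 0, 0, 0, 0, 0, 0, 0⟩ (fun v hv _ => h v hv) fun v _ hv => ?_
  simp [Row.I] at hv

/-- **A box next to a family of separated rows.** -/
theorem oneC_rows {ι : Type} [Fintype ι] (r : ι → Row)
    (hsep : ∀ i j, i ≠ j → ∀ u ∈ (r i).I, ∀ v ∈ (r j).I, 2 * a < nm (u - v))
    (h1 : ∀ v ∈ bxx y a, v ∉ uI r → v ∈ D)
    (h2 : ∀ v ∈ bxx y a, v ∈ uI r → v ∉ D)
    (h3 : ∀ i, ∀ v ∈ (r i).I, v ∈ bxx y a → η v = (r i).fr v) : OneC y a D η := by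
  by_cases h : ∃ i, ∃ v ∈ (r i).I, v ∈ bxx y a
  · obtain ⟨i, v, hv, hvb⟩ := h
    refine oneC_row (r i) (fun w hw hwi => h1 w hw fun hwu => ?_) fun w hw hwi =>
      ⟨h2 w hw (mem_uI.2 ⟨i, hwi⟩), h3 i w hwi hw⟩
    obtain ⟨j, hj⟩ := mem_uI.1 hwu
    have hij : i ≠ j := by
      rintro rfl
      exact hwi hj
    have k1 := hsep i j hij v hv w hj
    rw [mem_bxx] at hw hvb
    have k2 := nm_tri v y w
    have k3 := nm_sub_comm w y
    omega
  · push Not at h
    exact oneC_in fun v hv => h1 v hv fun hvu => by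
      obtain ⟨i, hi⟩ := mem_uI.1 hvu
      exact h i v hi hv

/-- The rows of an admissible configuration are far from each other. -/
theorem adm_far {ι : Type} {r : ι → Row} {θ κ R B : ℝ} {n : ℕ} {c : Ed → ℝ}
    (hW : (rowC θ r c).Adm κ R B n) {i j : ι} (hij : i ≠ j) {u v : ℤ × ℤ} (hu : u ∈ (r i).I)
    (hv : v ∈ (r j).I) : κ * n ≤ (nm (u - v) : ℝ) := by
  have hS : ∀ k, ((rowC θ r c).w k).S = XDL.bS (r k).I := fun k => rfl
  have h1 := hW.sep i j hij (H680.T.et (r i) u) (by rw [hS]; exact H680.T.et_mem hu)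
    (H680.T.et (r j) v) (by rw [hS]; exact H680.T.et_mem hv)
  rwa [H680.T.et_pos, H680.T.et_pos] at h1

/-- **`OneC` for the small boxes, next to the rows of an admissible configuration.** -/
theorem oneC_adm {ι : Type} [Fintype ι] {r : ι → Row} {θ κ R B : ℝ} {n : ℕ} {c : Ed → ℝ}
    (hW : (rowC θ r c).Adm κ R B n) (ha : (2 * a : ℝ) < κ * n)
    (h1 : ∀ v ∈ bxx y a, v ∉ uI r → v ∈ D)
    (h2 : ∀ v ∈ bxx y a, v ∈ uI r → v ∉ D)
    (h3 : ∀ i, ∀ v ∈ (r i).I, v ∈ bxx y a → η v = (r i).fr v) : OneC y a D η := by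
  refine oneC_rows r (fun i j hij u hu v hv => ?_) h1 h2 h3
  have := adm_far hW hij hu hv
  exact_mod_cast ha.trans_le this

end Vale.Agent.P167.Enl
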