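import Vale.Agent.P167.XDL.Geo3

/-!
# P167, general `q`: rows of squares along a straight line

`rowZ z r s e`: the squares on the right of the steps `s ≤ σ < e` of the line from `z` in the
direction `r`. Its boundary edges.
-/

namespace Vale.Agent.P167.Enl

open Finset
open Vale.Agent.P167.E6 (dir face)
open Vale.Agent.P167.H825 (epos)
open Vale.Agent.P167.BR (ce ce0 ce1 ce2 ce3 ce_even ce_odd eds mem_eds)
open Vale.Agent.P167.XDL (bS mem_bS)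

/-- The vertex number `σ` of the line. -/
def vz (z : ℤ × ℤ) (r : Fin 4) (σ : ℤ) : ℤ × ℤ := z + σ • dir r

/-- The square on the right of the step `σ` of the line from `z` in the direction `r`. -/
def oz (z : ℤ × ℤ) (r : Fin 4) (σ : ℤ) : ℤ × ℤ := face (vz z r σ) (r - 1)

/-- **The row** on the right of the steps `s ≤ σ < e`. -/
def rowZ (z : ℤ × ℤ) (r : Fin 4) (s e : ℕ) : Finset (ℤ × ℤ) :=
  (Finset.Ico s e).image fun σ : ℕ => oz z r σ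

theorem fin4_cases (r : Fin 4) : r = 0 ∨ r = 1 ∨ r = 2 ∨ r = 3 := by
  fin_cases r <;> simp

theorem m01 : (0 : Fin 4) - 1 = 3 := rfl
theorem m11 : (1 : Fin 4) - 1 = 0 := rfl
theorem m21 : (2 : Fin 4) - 1 = 1 := rfl
theorem m31 : (3 : Fin 4) - 1 = 2 := rfl

/-- Coordinates of the squares of a row. -/
theorem oz_eq (z : ℤ × ℤ) (σ : ℤ) : oz z 0 σ = (z.1 + σ, z.2 - 1) ∧ oz z 1 σ = (z.1, z.2 + σ) ∧
    oz z 2 σ = (z.1 - σ - 1, z.2) ∧ oz z 3 σ = (z.1 - 1, z.2 - σ - 1) := by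
  obtain ⟨x, y⟩ := z
  unfold oz vz
  rw [m01, m11, m21, m31]
  simp only [face0, face1, face2, face3, dir0, dir1, dir2, dir3]
  refine ⟨?_, ?_, ?_, ?_⟩ <;> simp <;> ring_nf

theorem vz_eq (z : ℤ × ℤ) (σ : ℤ) : vz z 0 σ = (z.1 + σ, z.2) ∧ vz z 1 σ = (z.1, z.2 + σ) ∧
    vz z 2 σ = (z.1 - σ, z.2) ∧ vz z 3 σ = (z.1, z.2 - σ) := by
  obtain ⟨x, y⟩ := z
  unfold vz
  simp only [dir0, dir1, dir2, dir3]
  refine ⟨?_, ?_, ?_, ?_⟩ <;> simp <;> ring_nf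

theorem mem_rowZ {z : ℤ × ℤ} {r : Fin 4} {s e : ℕ} {v : ℤ × ℤ} :
    v ∈ rowZ z r s e ↔ ∃ σ : ℕ, s ≤ σ ∧ σ < e ∧ v = oz z r σ := by
  unfold rowZ
  rw [mem_image]
  constructor
  · rintro ⟨σ, h, rfl⟩
    rw [mem_Ico] at h
    exact ⟨σ, h.1, h.2, rfl⟩
  · rintro ⟨σ, h1, h2, rfl⟩
    exact ⟨σ, mem_Ico.2 ⟨h1, h2⟩, rfl⟩

theorem oz_inj {z : ℤ × ℤ} {r : Fin 4} {σ τ : ℤ} (h : oz z r σ = oz z r τ) : σ = τ := by
  obtain ⟨h0, h1, h2, h3⟩ := oz_eq z σ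
  obtain ⟨k0, k1, k2, k3⟩ := oz_eq z τ
  rcases fin4_cases r with rfl | rfl | rfl | rfl
  · rw [h0, k0, Prod.ext_iff] at h; simp only at h; omega
  · rw [h1, k1, Prod.ext_iff] at h; simp only at h; omega
  · rw [h2, k2, Prod.ext_iff] at h; simp only at h; omega
  · rw [h3, k3, Prod.ext_iff] at h; simp only at h; omega

theorem oz_mem {z : ℤ × ℤ} {r : Fin 4} {s e : ℕ} {τ : ℤ} :
    oz z r τ ∈ rowZ z r s e ↔ (s : ℤ) ≤ τ ∧ τ < e := by
  rw [mem_rowZ]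
  constructor
  · rintro ⟨σ, h1, h2, h3⟩
    rw [oz_inj h3]
    omega
  · rintro ⟨h1, h2⟩
    refine ⟨τ.toNat, by omega, by omega, ?_⟩
    rw [Int.toNat_of_nonneg (by omega)]

/-- The two squares of an edge. -/
def Two (g : Ed) (v w : ℤ × ℤ) : Prop := (hdv g = v ∧ tlv g = w) ∨ (hdv g = w ∧ tlv g = v)

theorem Two.symm {g : Ed} {v w : ℤ × ℤ} (h : Two g v w) : Two g w v := Or.symm h

/-- The squares of the edge which crosses the step from `v` in the direction `r`. -/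
theorem two_ce (v : ℤ × ℤ) (r : Fin 4) : Two (ce v r) (face v r) (face v (r - 1)) := by
  by_cases hv : Even (v.1 + v.2)
  · have := ce_even hv r
    exact Or.inl ⟨this.2.2.1, this.2.2.2⟩
  · have := ce_odd hv r
    exact Or.inr ⟨this.2.2.2, this.2.2.1⟩

theorem two_inl (v : ℤ × ℤ) : Two (Sum.inl v) v (v.1 + 1, v.2) := by
  unfold Two hdv tlv
  by_cases h : Even (v.1 + v.2)
  · right; simp [h]
  · left; simp [h]

theorem two_inr (v : ℤ × ℤ) : Two (Sum.inr v) v (v.1, v.2 + 1) := by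
  unfold Two hdv tlv
  by_cases h : Even (v.1 + v.2)
  · left; simp [h]
  · right; simp [h]

/-- An edge is determined by its squares. -/
theorem two_inj {g g' : Ed} {v w : ℤ × ℤ} (h : Two g v w) (h' : Two g' v w) : g = g' := by
  have key : ∀ g : Ed, ∃ a b : ℤ × ℤ, Two g a b ∧ a = epos g ∧
      ((g = Sum.inl (epos g) ∧ b = (a.1 + 1, a.2)) ∨ (g = Sum.inr (epos g) ∧ b = (a.1, a.2 + 1))) := by
    intro g
    rcases g with u | u
    · exact ⟨u, _, two_inl u, rfl, Or.inl ⟨rfl, rfl⟩⟩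
    · exact ⟨u, _, two_inr u, rfl, Or.inr ⟨rfl, rfl⟩⟩
  obtain ⟨a, b, h1, h2, h3⟩ := key g
  obtain ⟨a', b', h1', h2', h3'⟩ := key g'
  have e0 : ∀ {g : Ed} {a b v w : ℤ × ℤ}, Two g v w → Two g a b →
      (a = v ∧ b = w) ∨ (a = w ∧ b = v) := by
    intro g a b v w h h1
    rcases h with ⟨k1, k2⟩ | ⟨k1, k2⟩ <;> rcases h1 with ⟨k3, k4⟩ | ⟨k3, k4⟩
    · exact Or.inl ⟨k3.symm.trans k1, k4.symm.trans k2⟩
    · exact Or.inr ⟨k4.symm.trans k2, k3.symm.trans k1⟩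
    · exact Or.inr ⟨k3.symm.trans k1, k4.symm.trans k2⟩
    · exact Or.inl ⟨k4.symm.trans k2, k3.symm.trans k1⟩
  have e1 := e0 h h1
  have e1' := e0 h' h1'
  obtain ⟨v1, v2⟩ := v
  obtain ⟨w1, w2⟩ := w
  obtain ⟨a1, a2⟩ := a
  obtain ⟨b1, b2⟩ := b
  obtain ⟨a1', a2'⟩ := a'
  obtain ⟨b1', b2'⟩ := b'
  simp only [Prod.mk.injEq] at *
  rcases h3 with ⟨g1, g2⟩ | ⟨g1, g2⟩ <;> rcases h3' with ⟨g1', g2'⟩ | ⟨g1', g2'⟩
  · rw [g1, g1', ← h2, ← h2']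
    congr 1
    rw [Prod.ext_iff]
    simp only
    omega
  · exfalso; omega
  · exfalso; omega
  · rw [g1, g1', ← h2, ← h2']
    congr 1
    rw [Prod.ext_iff]
    simp only
    omega

/-- Neighbours. -/
theorem Two.nb {g : Ed} {v w : ℤ × ℤ} (h : Two g v w) : w = (v.1 + 1, v.2) ∨ w = (v.1 - 1, v.2) ∨
    w = (v.1, v.2 + 1) ∨ w = (v.1, v.2 - 1) := by
  have e0 : ∀ {g : Ed} {a b v w : ℤ × ℤ}, Two g v w → Two g a b →
      (a = v ∧ b = w) ∨ (a = w ∧ b = v) := by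
    intro g a b v w h h1
    rcases h with ⟨k1, k2⟩ | ⟨k1, k2⟩ <;> rcases h1 with ⟨k3, k4⟩ | ⟨k3, k4⟩
    · exact Or.inl ⟨k3.symm.trans k1, k4.symm.trans k2⟩
    · exact Or.inr ⟨k4.symm.trans k2, k3.symm.trans k1⟩
    · exact Or.inr ⟨k3.symm.trans k1, k4.symm.trans k2⟩
    · exact Or.inl ⟨k4.symm.trans k2, k3.symm.trans k1⟩
  obtain ⟨v1, v2⟩ := v
  obtain ⟨w1, w2⟩ := w
  rcases g with ⟨u1, u2⟩ | ⟨u1, u2⟩
  · rcases e0 h (two_inl _) with ⟨h1, h2⟩ | ⟨h1, h2⟩ <;>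
      simp only [Prod.mk.injEq] at h1 h2 ⊢ <;> omega
  · rcases e0 h (two_inr _) with ⟨h1, h2⟩ | ⟨h1, h2⟩ <;>
      simp only [Prod.mk.injEq] at h1 h2 ⊢ <;> omega

theorem face_cross (v : ℤ × ℤ) (r : Fin 4) : face (v + dir (r - 1)) r = face v (r - 1) := by
  obtain ⟨x, y⟩ := v
  rcases fin4_cases r with rfl | rfl | rfl | rfl
  · rw [m01]; simp [face0, face3, dir3]; ring
  · rw [m11]; simp [face0, face1, dir0]
  · rw [m21]; simp [face1, face2, dir1]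
  · rw [m31]; simp [face3, face2, dir2]; ring

theorem face_add (v w : ℤ × ℤ) (r : Fin 4) : face (v + w) r = face v r + w := by
  obtain ⟨x, y⟩ := v
  obtain ⟨x', y'⟩ := w
  rcases fin4_cases r with rfl | rfl | rfl | rfl
  · simp [face0]
  · simp [face1]; ring
  · simp [face2]; constructor <;> ring
  · simp [face3]; ring

theorem face_back (z : ℤ × ℤ) (r : Fin 4) (σ : ℤ) :
    face (vz z r σ) (r - 1 - 1) = oz z r (σ - 1) := by
  obtain ⟨h0, h1, h2, h3⟩ := oz_eq z (σ - 1)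
  obtain ⟨k0, k1, k2, k3⟩ := vz_eq z σ
  rcases fin4_cases r with rfl | rfl | rfl | rfl
  · rw [h0, k0, m01, m31, face2]; simp; ring
  · rw [h1, k1, m11, m01, face3]; simp; ring
  · rw [h2, k2, m21, m11, face0]; simp; ring
  · rw [h3, k3, m31, m21, face1]; simp; ring

/-- The squares of the four edges. -/
theorem two_near (z : ℤ × ℤ) (r : Fin 4) (σ : ℤ) :
    Two (ce (vz z r σ) r) (oz z r σ) (face (vz z r σ) r) := (two_ce _ _).symm

theorem two_far (z : ℤ × ℤ) (r : Fin 4) (σ : ℤ) :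
    Two (ce (vz z r σ + dir (r - 1)) r) (oz z r σ) (oz z r σ + dir (r - 1)) := by
  have := two_ce (vz z r σ + dir (r - 1)) r
  rw [face_cross, face_add] at this
  exact this

theorem two_side (z : ℤ × ℤ) (r : Fin 4) (σ : ℤ) :
    Two (ce (vz z r σ) (r - 1)) (oz z r σ) (oz z r (σ - 1)) := by
  have := two_ce (vz z r σ) (r - 1)
  rw [face_back] at this
  exact this

theorem two_side' (z : ℤ × ℤ) (r : Fin 4) (σ : ℤ) :
    Two (ce (vz z r (σ + 1)) (r - 1)) (oz z r σ) (oz z r (σ + 1)) := by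
  have := (two_side z r (σ + 1)).symm
  rwa [add_sub_cancel_right] at this

/-- The four edges of the square on the right of a step. -/
theorem edge_of_oz {z : ℤ × ℤ} {r : Fin 4} {σ : ℤ} {g : Ed} {w : ℤ × ℤ}
    (h : Two g (oz z r σ) w) :
    (g = ce (vz z r σ) r ∧ w = face (vz z r σ) r) ∨
    (g = ce (vz z r σ + dir (r - 1)) r ∧ w = oz z r σ + dir (r - 1)) ∨
    (g = ce (vz z r σ) (r - 1) ∧ w = oz z r (σ - 1)) ∨
    (g = ce (vz z r (σ + 1)) (r - 1) ∧ w = oz z r (σ + 1)) := by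
  have key : w = face (vz z r σ) r ∨ w = oz z r σ + dir (r - 1) ∨ w = oz z r (σ - 1) ∨
      w = oz z r (σ + 1) := by
    have hn := h.nb
    obtain ⟨h0, h1, h2, h3⟩ := oz_eq z σ
    obtain ⟨i0, i1, i2, i3⟩ := oz_eq z (σ - 1)
    obtain ⟨j0, j1, j2, j3⟩ := oz_eq z (σ + 1)
    obtain ⟨k0, k1, k2, k3⟩ := vz_eq z σ
    obtain ⟨w1, w2⟩ := w
    rcases fin4_cases r with rfl | rfl | rfl | rfl
    · rw [h0] at hn ⊢
      rw [i0, j0, k0, m01, face0, dir3]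
      simp only [Prod.mk.injEq, Prod.mk_add_mk] at hn ⊢
      omega
    · rw [h1] at hn ⊢
      rw [i1, j1, k1, m11, face1, dir0]
      simp only [Prod.mk.injEq, Prod.mk_add_mk] at hn ⊢
      omega
    · rw [h2] at hn ⊢
      rw [i2, j2, k2, m21, face2, dir1]
      simp only [Prod.mk.injEq, Prod.mk_add_mk] at hn ⊢
      omega
    · rw [h3] at hn ⊢
      rw [i3, j3, k3, m31, face3, dir2]
      simp only [Prod.mk.injEq, Prod.mk_add_mk] at hn ⊢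
      omega
  rcases key with rfl | rfl | rfl | rfl
  · exact Or.inl ⟨two_inj h (two_near z r σ), rfl⟩
  · exact Or.inr (Or.inl ⟨two_inj h (two_far z r σ), rfl⟩)
  · exact Or.inr (Or.inr (Or.inl ⟨two_inj h (two_side z r σ), rfl⟩))
  · exact Or.inr (Or.inr (Or.inr ⟨two_inj h (two_side' z r σ), rfl⟩))

theorem mem_bS_two {D : Finset (ℤ × ℤ)} {g : Ed} : g ∈ bS D ↔ ∃ v w, Two g v w ∧ v ∈ D ∧ w ∉ D := by
  rw [mem_bS]
  constructor
  · rintro (⟨h1, h2⟩ | ⟨h1, h2⟩)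
    · exact ⟨_, _, Or.inl ⟨rfl, rfl⟩, h1, h2⟩
    · exact ⟨_, _, Or.inr ⟨rfl, rfl⟩, h2, h1⟩
  · rintro ⟨v, w, (⟨rfl, rfl⟩ | ⟨rfl, rfl⟩), h1, h2⟩
    · exact Or.inl ⟨h1, h2⟩
    · exact Or.inr ⟨h2, h1⟩

theorem near_notMem {z : ℤ × ℤ} {r : Fin 4} {s e : ℕ} (σ : ℤ) : face (vz z r σ) r ∉ rowZ z r s e := by
  rw [mem_rowZ]
  rintro ⟨τ, -, -, h⟩
  obtain ⟨i0, i1, i2, i3⟩ := oz_eq z τ
  obtain ⟨k0, k1, k2, k3⟩ := vz_eq z σ
  rcases fin4_cases r with rfl | rfl | rfl | rfl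
  · rw [k0, i0, face0, Prod.ext_iff] at h; simp only at h; omega
  · rw [k1, i1, face1, Prod.ext_iff] at h; simp only at h; omega
  · rw [k2, i2, face2, Prod.ext_iff] at h; simp only at h; omega
  · rw [k3, i3, face3, Prod.ext_iff] at h; simp only at h; omega

theorem far_notMem {z : ℤ × ℤ} {r : Fin 4} {s e : ℕ} (σ : ℤ) :
    oz z r σ + dir (r - 1) ∉ rowZ z r s e := by
  rw [mem_rowZ]
  rintro ⟨τ, -, -, h⟩
  obtain ⟨i0, i1, i2, i3⟩ := oz_eq z τ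
  obtain ⟨k0, k1, k2, k3⟩ := oz_eq z σ
  rcases fin4_cases r with rfl | rfl | rfl | rfl
  · rw [k0, i0, m01, dir3, Prod.ext_iff] at h; simp only [Prod.mk_add_mk] at h; omega
  · rw [k1, i1, m11, dir0, Prod.ext_iff] at h; simp only [Prod.mk_add_mk] at h; omega
  · rw [k2, i2, m21, dir1, Prod.ext_iff] at h; simp only [Prod.mk_add_mk] at h; omega
  · rw [k3, i3, m31, dir2, Prod.ext_iff] at h; simp only [Prod.mk_add_mk] at h; omega

/-- **The boundary edges of a row.** -/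
theorem mem_bS_row {z : ℤ × ℤ} {r : Fin 4} {s e : ℕ} {g : Ed} : g ∈ bS (rowZ z r s e) ↔
    (∃ σ : ℕ, s ≤ σ ∧ σ < e ∧ (g = ce (vz z r σ) r ∨ g = ce (vz z r σ + dir (r - 1)) r)) ∨
      (s < e ∧ (g = ce (vz z r s) (r - 1) ∨ g = ce (vz z r e) (r - 1))) := by
  rw [mem_bS_two]
  constructor
  · rintro ⟨v, w, h, hv, hw⟩
    obtain ⟨σ, h1, h2, rfl⟩ := mem_rowZ.1 hv
    rcases edge_of_oz h with ⟨rfl, -⟩ | ⟨rfl, -⟩ | ⟨rfl, rfl⟩ | ⟨rfl, rfl⟩
    · exact Or.inl ⟨σ, h1, h2, Or.inl rfl⟩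
    · exact Or.inl ⟨σ, h1, h2, Or.inr rfl⟩
    · rw [oz_mem] at hw
      have h3 : (σ : ℤ) = s := by omega
      rw [h3]
      exact Or.inr ⟨by omega, Or.inl rfl⟩
    · rw [oz_mem] at hw
      have h3 : (σ : ℤ) + 1 = e := by omega
      rw [h3]
      exact Or.inr ⟨by omega, Or.inr rfl⟩
  · rintro (⟨σ, h1, h2, rfl | rfl⟩ | ⟨h1, rfl | rfl⟩)
    · exact ⟨_, _, two_near z r σ, oz_mem.2 (by omega), near_notMem _⟩
    · exact ⟨_, _, two_far z r σ, oz_mem.2 (by omega), far_notMem _⟩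
    · exact ⟨_, _, two_side z r s, oz_mem.2 (by omega), by rw [oz_mem]; omega⟩
    · have h3 := two_side' z r (e - 1)
      rw [sub_add_cancel] at h3
      exact ⟨_, _, h3, oz_mem.2 (by omega), by rw [oz_mem]; omega⟩

end Vale.Agent.P167.Enl
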